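import Mathlib
import Vale.Agent.P347.Defs

/-!
Setting of the derivative calculus along the scale flows, at scale one: the field `D u x` (the
gradient of the potential `V u x` at scale `u`), its derivative tensors, the two velocities and
the weights of the laws `μ_r ⊗ γ`.
-/

open MeasureTheory Filter
open scoped RealInnerProductSpace

namespace Vale.Agent.P347.Zero.Calc

variable {d : ℕ}

/-- The i-th unit vector. -/
noncomputable def ev (i : Fin d) : EE d := EuclideanSpace.single i (1 : ℝ)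

/-- The scales at which the field is used. -/
def scales : Set ℝ := Set.Ioo (1 / 20) 2

/-- Derivatives of D in the coordinate directions of a list, innermost last. -/
noncomputable def pd (D : ℝ → EE d → EE d) : List (Fin d) → ℝ → EE d → ℝ
  | [], _, _ => 0
  | [k], u, x => D u x k
  | i :: k :: l, u, x => fderiv ℝ (pd D (k :: l) u) x (ev i)

/-- The operator norm of a matrix is at most C. -/
def Mop {α β : Type} [Fintype α] [Fintype β] (a : α → β → ℝ) (C : ℝ) : Prop :=
  ∀ v : β → ℝ, ∑ i, (∑ j, a i j * v j) ^ 2 ≤ C ^ 2 * ∑ j, v j ^ 2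

/-- The data at scale one. -/
structure Cx (K : ℕ → ℝ) where
  d : ℕ
  V : ℝ → EE d → ℝ
  D : ℝ → EE d → EE d
  y : EE d
  sig : ℝ
  sig_pos : 0 < sig
  /-- The size of all derivatives of D; the rotation rate must be compensated by it. -/
  lam : ℝ
  lam_pos : 0 < lam
  lam_le : lam ≤ 1
  sig_inv : lam * sig⁻¹ ≤ K 0
  grad : ∀ u ∈ scales, ∀ x, HasGradientAt (V u) (D u x) x
  lower : ∀ u ∈ scales, ∃ A : ℝ, ∀ x, -A ≤ V u x
  smooth : ContDiffOn ℝ (⊤ : ℕ∞) (fun p : ℝ × EE d => D p.1 p.2) (scales ×ˢ Set.univ)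
  symm : ∀ u ∈ scales, ∀ x i k, pd D [i, k] u x = pd D [k, i] u x
  heat : ∀ u ∈ scales, ∀ x k, deriv (fun t => D t x k) u =
    1 / 2 * (∑ i, pd D [i, i, k] u x) - ∑ i, D u x i * pd D [i, k] u x
  bip : ∀ a b : ℕ, 1 ≤ a → 1 ≤ b → ∀ u ∈ scales, ∀ x,
    Mop (fun (f : Fin a → Fin d) (g : Fin b → Fin d) =>
      pd D (List.ofFn f ++ List.ofFn g) u x) (lam * K (a + b))

variable {K : ℕ → ℝ}

/-- Flow times. -/
def times : Set ℝ := Set.Ioo (-(9 / 10)) (9 / 10)

/-- Time, position and auxiliary variable. -/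
abbrev Pt (c : Cx K) := ℝ × EE c.d × EE c.d

/-- The scale at time r. -/
noncomputable def scaleAt (r : ℝ) : ℝ := 1 - r ^ 2

/-- The point of space at time r. -/
noncomputable def posAt (c : Cx K) (r : ℝ) (ξ : EE c.d) : EE c.d := c.y + r • ξ

/-- The velocity of the plain flow. -/
noncomputable def vel1 (c : Cx K) (p : Pt c) : EE c.d × EE c.d :=
  (-c.D (scaleAt p.1) (posAt c p.1 p.2.1), 0)

/-- The value of D at the current point. -/
noncomputable def hval (c : Cx K) (p : Pt c) (k : Fin c.d) : ℝ :=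
  c.D (scaleAt p.1) (posAt c p.1 p.2.1) k

/-- The Hessian applied to the auxiliary variable. -/
noncomputable def Peta (c : Cx K) (p : Pt c) (k : Fin c.d) : ℝ :=
  ∑ l, pd c.D [l, k] (scaleAt p.1) (posAt c p.1 p.2.1) * p.2.2 l

/-- The squared Hessian applied to the auxiliary variable. -/
noncomputable def PPeta (c : Cx K) (p : Pt c) (k : Fin c.d) : ℝ :=
  ∑ l, pd c.D [l, k] (scaleAt p.1) (posAt c p.1 p.2.1) * Peta c p l

/-- The velocity of the rotated flow. -/
noncomputable def vel2 (c : Cx K) (p : Pt c) : EE c.d × EE c.d :=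
  let x := posAt c p.1 p.2.1
  let u := scaleAt p.1
  (-c.D u x + c.sig⁻¹ • WithLp.toLp 2 (Peta c p),
   c.sig⁻¹ • WithLp.toLp 2 (fun k => p.1 * (∑ i, pd c.D [i, i, k] u x) -
      ∑ l, pd c.D [l, k] u x * (p.2.1 l + p.1 * c.D u x l)))

/-- The derivative along a velocity field. -/
noncomputable def along {c : Cx K} {α : Type} (v : Pt c → EE c.d × EE c.d)
    (φ : Pt c → α → ℝ) (p : Pt c) (i : α) : ℝ :=
  fderiv ℝ (fun q => φ q i) p (1, v p)

/-- The unnormalised weight of the law at time r. -/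
noncomputable def wgt (c : Cx K) (r : ℝ) (z : EE c.d × EE c.d) : ℝ :=
  Real.exp (-‖z.1‖ ^ 2 / 2 - ‖z.2‖ ^ 2 / 2 - c.V (scaleAt r) (posAt c r z.1))

/-- Squared L² norm under the unnormalised law at time r. -/
noncomputable def sqn (c : Cx K) {α : Type} [Fintype α] (φ : Pt c → α → ℝ) (r : ℝ) : ℝ :=
  ∫ z, (∑ i, φ (r, z) i ^ 2) * wgt c r z

/-- Total weight at time r. -/
noncomputable def mass (c : Cx K) (r : ℝ) : ℝ := ∫ z, wgt c r z

/-- L² bound of order √d, uniform over the data. -/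
def Bdd (K : ℕ → ℝ) {α : Cx K → Type} [∀ c, Fintype (α c)]
    (φ : ∀ c, Pt c → α c → ℝ) : Prop :=
  ∃ C, ∀ c : Cx K, ∀ r ∈ times,
    Integrable (fun z => (∑ i, φ c (r, z) i ^ 2) * wgt c r z) ∧
      sqn c (φ c) r ≤ C * c.d * mass c r

end Vale.Agent.P347.Zero.Calc
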