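import Vale.Agent.P347.Zero.Calc.FClose

/-!
Exported bounds: all derivatives of D, Pη and P²η along the plain and the rotated flow are
bounded in L² by a multiple of √d, uniformly in the data.
-/

open Finset MeasureTheory Filter
open scoped ContDiff Topology

namespace Vale.Agent.P347.Zero.Calc

set_option linter.unusedVariables false
set_option linter.unusedSectionVars false

variable {K : ℕ → ℝ} {κ : Cx K → Type} [∀ c, Fintype (κ c)]

/-- The rotation rate times the Hessian on a derivative index. -/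
noncomputable def tensRate (κ : Cx K → Type) [∀ c, Fintype (κ c)] :
    XOp (fun c => Fin c.d × κ c) (fun c => Fin c.d × κ c) :=
  xre (fun c => Equiv.prodComm _ _) (fun c => Equiv.prodComm _ _)
    (xlift (ι := κ) (wPm fun c : Cx K => c.sig⁻¹))

/-- The rotation part of the flow derivative, applied to a gradient. -/
noncomputable def wdg (G : XFld (fun c => Dir c × κ c)) : XFld κ :=
  fadd (dlt (fpick (toEta κ) (fmul (tensRate κ) (fpick (ofXi κ) G))))
    (fsmul (-1) (dlt (fpick (toXi κ) (fmul (tensRate κ) (fpick (ofEta κ) G)))))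

lemma freg_wdg {m : ℕ} {G : XFld (fun c => Dir c × κ c)} (h : FReg m G) : FReg m (wdg G) := by
  have hT : XReg m (tensRate κ) := (xclosed m).re _ _ ((xclosed m).lift (xreg_rate m))
  exact (fclosed m).add
    ((fclosed m).dlt ((fclosed m).pick pickInj_toEta
      ((fclosed m).mul hT ((fclosed m).pick pickInj_ofXi h))))
    ((fclosed m).smul (-1) ((fclosed m).dlt ((fclosed m).pick pickInj_toXi
      ((fclosed m).mul hT ((fclosed m).pick pickInj_ofEta h)))))

open Classical in
lemma fmul_tensRate (φ : XFld (fun c => Fin c.d × κ c)) (c : Cx K) (p : Pt c)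
    (ik : Fin c.d × κ c) : fmul (tensRate κ) φ c p ik =
      ∑ l, c.sig⁻¹ * Pm K c (scaleAt p.1) (posAt c p.1 p.2.1) ik.1 l * φ c p (l, ik.2) := by
  simp only [fmul, tensRate, xre, xlift, Fintype.sum_prod_type]
  refine sum_congr rfl fun l _ => ?_
  rw [sum_eq_single ik.2]
  · simp [mlift, wPm]
  · intro b _ hb
    simp [mlift, Ne.symm hb]
  · simp

lemma along_vel2 {φ : XFld κ} (hs : ∀ c k, FS c fun p => φ c p k) (c : Cx K) (p : Pt c)
    (hp : p ∈ dom c) : along (vel2 c) (φ c) p = fadd (fd1 φ) (wdg (grd φ)) c p := by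
  classical
  funext k
  set f := fun q => φ c q k with hf
  have sf : FS c f := hs c k
  set u := scaleAt p.1 with hu
  set x := posAt c p.1 p.2.1 with hx
  have hu' : u ∈ scales := scaleAt_mem hp.1
  have sP : ∀ a l, Sm fun v y => Pm K c v y a l := fun a l => xall_Pm.base.1 c a l
  set A : Fin c.d → ℝ := fun a => c.sig⁻¹ * Peta c p a with hA
  set B : Fin c.d → ℝ := fun a => c.sig⁻¹ * (p.1 * (∑ i, pd c.D [i, i, a] u x) -
      ∑ l, pd c.D [l, a] u x * (p.2.1 l + p.1 * c.D u x l)) with hB
  have hsplit : ((1 : ℝ), vel2 c p) = ((1 : ℝ), vel1 c p) +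
      ((∑ a, A a • ((0 : ℝ), bz c (.inl a))) + ∑ a, B a • ((0 : ℝ), bz c (.inr a))) := by
    refine Prod.ext (by simp [Prod.fst_sum]) (Prod.ext ?_ ?_)
    · ext i
      simp [vel1, vel2, bz, Prod.fst_sum, Prod.snd_sum, A, ev, Finset.sum_apply,
        Pi.single_apply, ← hu, ← hx]
    · ext i
      simp [vel1, vel2, bz, Prod.snd_sum, B, ev, Finset.sum_apply, Pi.single_apply,
        ← hu, ← hx]
  show fderiv ℝ f p (1, vel2 c p) = _
  rw [hsplit, map_add, map_add, map_sum, map_sum]
  simp only [map_smul, smul_eq_mul, fadd, fd1]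
  show d1 f p + (∑ a, A a * dp f (.inl a) p + ∑ a, B a * dp f (.inr a) p) = _
  congr 1
  have hE : ∀ (q : Pt c) (i : Dir c), fpick (toEta κ) (fmul (tensRate κ) (fpick (ofXi κ) (grd φ))) c
      q (i, k) = Sum.elim (fun _ : Fin c.d => (0 : ℝ)) (fun a => ∑ l, c.sig⁻¹ *
        Pm K c (scaleAt q.1) (posAt c q.1 q.2.1) a l * dp f (.inl l) q) i := fun q i => by
    cases i <;> simp [fpick, toEta, fmul_tensRate, ofXi, grd, f]
  have hX : ∀ (q : Pt c) (i : Dir c), fpick (toXi κ) (fmul (tensRate κ) (fpick (ofEta κ) (grd φ))) c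
      q (i, k) = Sum.elim (fun a => ∑ l, c.sig⁻¹ *
        Pm K c (scaleAt q.1) (posAt c q.1 q.2.1) a l * dp f (.inr l) q)
        (fun _ : Fin c.d => (0 : ℝ)) i := fun q i => by
    cases i <;> simp [fpick, toXi, fmul_tensRate, ofEta, grd, f]
  have sT : ∀ a l, FS c fun q => c.sig⁻¹ * Pm K c (scaleAt q.1) (posAt c q.1 q.2.1) a l :=
    fun a l => (fs_const _).mul (fs_upt (sP a l))
  simp only [wdg, fadd, fsmul, dlt, hE, hX, Fintype.sum_sum_type, Sum.elim_inl, Sum.elim_inr,
    dp_const, mul_zero, sub_zero, sum_const_zero, zero_add, add_zero]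
  simp only [fun a i (F : Fin c.d → Dir c) => dp_sum (fun l => (sT a l).mul (fs_dp sf (F l))) hp i,
    fun a l i (j : Dir c) => dp_mul (sT a l) (fs_dp sf j) hp i,
    fun a l i => dp_mul (fs_const c.sig⁻¹) (fs_upt (sP a l)) hp i,
    dp_const, fun a l i => dp_upt (sP a l) hp i, Sum.elim_inl, Sum.elim_inr, mul_zero, zero_mul,
    zero_add, ← hu, ← hx]
  have hPe : ∀ a, A a = ∑ l, c.sig⁻¹ * Pm K c u x l a * p.2.2 l := fun a => by
    simp only [A, Peta, mul_sum, Pm, ← hu, ← hx, mul_assoc]
  have hBe : ∀ a, B a = (∑ l, c.sig⁻¹ * p.1 * dx (fun v y => Pm K c v y l a) l u x) -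
      ∑ l, c.sig⁻¹ * Pm K c u x l a * cmp c (.inl l) p := fun a => by
    have hdd : ∀ i, pd c.D [i, i, a] u x = dx (fun v y => Pm K c v y i a) i u x := fun i => rfl
    simp only [B, Pm, cmp, ← hu, ← hx, mul_sub, mul_sum, hdd, mul_assoc]
  simp only [hPe, hBe, cmp, ← hu, ← hx, sum_mul, mul_sum, sub_mul, sum_sub_distrib,
    sum_add_distrib, mul_add, add_mul]
  have hsym : ∀ a l, Pm K c u x a l = Pm K c u x l a := fun a l => c.symm u hu' x a l
  have hcross : ∀ a l, dp (dp f (.inl l)) (.inr a) p = dp (dp f (.inr a)) (.inl l) p :=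
    fun a l => dp_dp sf hp (.inl l) (.inr a)
  have k1 : ∑ a, ∑ l, c.sig⁻¹ * Pm K c u x l a * p.2.2 l * dp f (.inl a) p =
      ∑ a, ∑ l, p.2.2 a * (c.sig⁻¹ * Pm K c u x a l * dp f (.inl l) p) := by
    rw [sum_comm]
    exact sum_congr rfl fun a _ => sum_congr rfl fun l _ => by ring
  have k2 : ∑ a, ∑ l, c.sig⁻¹ * p.1 * dx (fun v y => Pm K c v y l a) l u x * dp f (.inr a) p =
      ∑ a, ∑ l, c.sig⁻¹ * (p.1 * dx (fun v y => Pm K c v y a l) a u x) * dp f (.inr l) p := by
    rw [sum_comm]
    exact sum_congr rfl fun a _ => sum_congr rfl fun l _ => by ring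
  have k3 : ∑ a, ∑ l, c.sig⁻¹ * Pm K c u x a l * dp (dp f (.inl l)) (.inr a) p =
      ∑ a, ∑ l, c.sig⁻¹ * Pm K c u x a l * dp (dp f (.inr l)) (.inl a) p := by
    rw [sum_comm]
    exact sum_congr rfl fun a _ => sum_congr rfl fun l _ => by rw [hsym l a, hcross]
  have k4 : ∀ g : Fin c.d → ℝ,
      ∑ a, ∑ l, c.sig⁻¹ * Pm K c u x l a * g l * dp f (.inr a) p =
        ∑ a, ∑ l, g a * (c.sig⁻¹ * Pm K c u x a l * dp f (.inr l) p) := fun g => by
    rw [sum_comm]
    exact sum_congr rfl fun a _ => sum_congr rfl fun l _ => by ring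
  have k5 : ∑ a, ∑ l, c.sig⁻¹ * Pm K c u x l a * (p.1 * c.D u x l) * dp f (.inr a) p =
      ∑ a, ∑ l, p.1 * c.D u x a * (c.sig⁻¹ * Pm K c u x a l * dp f (.inr l) p) :=
    k4 fun l => p.1 * c.D u x l
  rw [k1, k2, k4 (fun l => p.2.1 l), k5, k3]
  ring

/-- One step of the derivative along the rotated flow. -/
lemma freg_along {m : ℕ} {φ : XFld κ} (h : FReg (m + 1) φ) :
    FReg m (fun c => along (vel2 c) (φ c)) :=
  FReg.congr m ((fclosed m).add h.2 (freg_wdg ((fclosed m).grd (FReg.down m h))))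
    fun c p hp => along_vel2 h.all.base.1 c p hp

lemma freg_iter_plain : ∀ (n : ℕ) {φ : XFld κ}, (∀ m, FReg m φ) →
    ∀ m, FReg m (fun c => (along (vel1 c))^[n] (φ c))
  | 0, _, h, m => h m
  | n + 1, φ, h, m => freg_iter_plain n (φ := fd1 φ) (fun m => (h (m + 1)).2) m

lemma freg_iter_rot : ∀ (n : ℕ) {φ : XFld κ}, (∀ m, FReg m φ) →
    ∀ m, FReg m (fun c => (along (vel2 c))^[n] (φ c))
  | 0, _, h, m => h m
  | n + 1, φ, h, m =>
    freg_iter_rot n (φ := fun c => along (vel2 c) (φ c)) (fun m => freg_along (h (m + 1))) m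

lemma bdd_of_freg {φ : XFld κ} (h : FReg 0 φ) : Bdd K φ := by
  obtain ⟨hs, hp, C, hC, hb⟩ := h.all.base
  exact ⟨C, fun c r hr => ⟨integrable_sq hs hp c hr, hb c r hr⟩⟩

lemma freg_zero : ∀ (m : ℕ) {κ : Cx K → Type} [∀ c, Fintype (κ c)],
    FReg m (fun c _ _ => 0 : XFld κ) := by
  have hg : ∀ (j : ℕ) {κ : Cx K → Type} [∀ c, Fintype (κ c)],
      FGood j (fun c _ _ => 0 : XFld κ) := by
    intro j
    induction j with
    | zero => exact fun {κ} _ => ⟨fun c k => fs_const 0, fun c k => pg_const 0, 0, le_rfl,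
        fun c r hr => by simp [sqn]⟩
    | succ j ih =>
      exact fun {κ} _ => ⟨⟨fun c k => fs_const 0, fun c k => pg_const 0, 0, le_rfl,
        fun c r hr => by simp [sqn]⟩,
        FGood.congr j ih fun c p hp => funext fun ik => dp_const 0 ik.1⟩
  intro m
  induction m with
  | zero => exact fun {κ} _ j => hg j
  | succ m ih =>
    exact fun {κ} _ => ⟨fun j => hg j, FReg.congr m ih fun c p hp => funext fun k => d1_const 0⟩

open Classical in
/-- The constant identity. -/
noncomputable def idF : XFld (fun c : Cx K => Fin c.d × Fin c.d) :=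
  fun c p ik => if ik.1 = ik.2 then 1 else 0

lemma freg_idF : ∀ m, FReg m (idF (K := K)) := by
  have hb : FBase (idF (K := K)) := by
    refine ⟨fun c k => fs_const _, fun c k => pg_const _, 1, zero_le_one, fun c r hr => ?_⟩
    have e : ∀ p : Pt c, ∑ ik, idF c p ik ^ 2 = (c.d : ℝ) := fun p => by
      simp only [idF, Fintype.sum_prod_type]
      simp
    simp only [sqn, e, mass, one_mul]
    rw [integral_const_mul]
  have ha : FAll (idF (K := K)) := fun j => by
    cases j with
    | zero => exact hb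
    | succ j => exact ⟨hb, FGood.congr j ((freg_zero 0).all j) fun c p hp => funext fun ik =>
        dp_const _ ik.1⟩
  intro m
  cases m with
  | zero => exact ha
  | succ m => exact ⟨ha, FReg.congr m (freg_zero m) fun c p hp => funext fun k => d1_const _⟩

/-- The Hessian as a field. -/
noncomputable def hessF : XFld (fun c : Cx K => Fin c.d × Fin c.d) :=
  fpick (fun c ik => some (Equiv.prodComm _ _ ik))
    (fmul (xlift (ι := fun c => Fin c.d) (Pm K)) idF)

lemma hessF_apply (c : Cx K) (p : Pt c) (l k : Fin c.d) :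
    hessF c p (l, k) = Pm K c (scaleAt p.1) (posAt c p.1 p.2.1) l k := by
  classical
  simp [hessF, fpick, fmul_lift, idF]

lemma freg_hessF (m : ℕ) : FReg m (hessF (K := K)) :=
  (fclosed m).pick (pickInj_equiv fun c => Equiv.prodComm _ _)
    ((fclosed m).mul ((xclosed m).lift (xreg_Pm m)) (freg_idF m))

lemma fs_hval (c : Cx K) (k : Fin c.d) : FS c fun p => hval c p k := fs_upt (sm_comp_D c k)

lemma freg_grd_hval (m : ℕ) : FReg m (grd (hval (K := K))) :=
  FReg.congr m ((fclosed m).pick pickInj_toXi ((fclosed m).time (freg_hessF m)))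
    fun c p hp => funext fun ik => by
      obtain ⟨i, k⟩ := ik
      refine (dp_upt (sm_comp_D c k) hp i).trans ?_
      cases i <;> simp [fpick, toXi, ftime, hessF_apply, Pm]
      exact Or.inl rfl

lemma freg_fd1_hval (m : ℕ) : FReg m (fd1 (hval (K := K))) :=
  FReg.congr m ((fclosed m).dlt ((fclosed m).pick pickInj_toXi (freg_hessF m)))
    fun c p hp => funext fun k => by
      have hX : ∀ (q : Pt c) (i : Dir c), fpick (toXi fun c : Cx K => Fin c.d) hessF c q (i, k) =
          Sum.elim (fun l => Pm K c (scaleAt q.1) (posAt c q.1 q.2.1) l k)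
            (fun _ : Fin c.d => (0 : ℝ)) i := fun q i => by
        cases i <;> simp [fpick, toXi, hessF_apply]
      refine (d1_upt (sm_comp_D c k) hp).trans ?_
      rw [hs_D c k (scaleAt_mem hp.1)]
      simp only [dlt, hX, Fintype.sum_sum_type, Sum.elim_inl, Sum.elim_inr, dp_const, mul_zero,
        sub_zero, sum_const_zero, add_zero, zero_add]
      refine sum_congr rfl fun l _ => ?_
      rw [dp_upt (xall_Pm.base.1 c l k) hp]
      rfl

lemma freg_Peta (m : ℕ) : FReg m (Peta (K := K)) := by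
  have hη : FReg m (dlt (fpick (toEta fun c : Cx K => Fin c.d) idF)) :=
    (fclosed m).dlt ((fclosed m).pick pickInj_toEta (freg_idF m))
  refine FReg.congr m ((fclosed m).mul (xreg_Pm m) hη) fun c p hp => funext fun k => ?_
  classical
  have hX : ∀ (q : Pt c) (i : Dir c) (l : Fin c.d),
      fpick (toEta fun c : Cx K => Fin c.d) idF c q (i, l) =
        Sum.elim (fun _ : Fin c.d => (0 : ℝ)) (fun j => if j = l then 1 else 0) i := fun q i l => by
    cases i <;> simp [fpick, toEta, idF]
  have hηv : ∀ l, dlt (fpick (toEta fun c : Cx K => Fin c.d) idF) c p l = p.2.2 l := fun l => by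
    simp only [dlt, hX, Fintype.sum_sum_type, Sum.elim_inl, Sum.elim_inr, dp_const, sub_zero,
      mul_zero, sum_const_zero, zero_add]
    simp [cmp]
  simp only [Peta, fmul, hηv]
  exact sum_congr rfl fun l _ => by
    rw [show Pm K c (scaleAt p.1) (posAt c p.1 p.2.1) k l = _ from
      c.symm _ (scaleAt_mem hp.1) _ k l]

lemma freg_PPeta (m : ℕ) : FReg m (PPeta (K := K)) :=
  FReg.congr m ((fclosed m).mul (xreg_Pm m) (freg_Peta m)) fun c p hp => funext fun k => by
    simp only [PPeta, fmul]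
    exact sum_congr rfl fun l _ => by
      rw [show Pm K c (scaleAt p.1) (posAt c p.1 p.2.1) k l = _ from
        c.symm _ (scaleAt_mem hp.1) _ k l]

lemma freg_along_hval (m : ℕ) : FReg m (fun c : Cx K => along (vel2 c) (hval c)) :=
  FReg.congr m ((fclosed m).add (freg_fd1_hval m) (freg_wdg (freg_grd_hval m)))
    fun c p hp => along_vel2 fs_hval c p hp

/-- Derivatives of D along the plain flow. -/
theorem plain_bound (m : ℕ) : Bdd K fun c => (along (vel1 c))^[m + 1] (hval c) :=
  bdd_of_freg (freg_iter_plain m (φ := fd1 hval) freg_fd1_hval 0)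

/-- Derivatives of D along the rotated flow. -/
theorem rot_bound_hval (m : ℕ) : Bdd K fun c => (along (vel2 c))^[m + 1] (hval c) :=
  bdd_of_freg (freg_iter_rot m (φ := fun c => along (vel2 c) (hval c)) freg_along_hval 0)

/-- Derivatives of Pη along the rotated flow. -/
theorem rot_bound_Peta (m : ℕ) : Bdd K fun c => (along (vel2 c))^[m] (Peta c) :=
  bdd_of_freg (freg_iter_rot m freg_Peta 0)

/-- Derivatives of P²η along the rotated flow. -/
theorem rot_bound_PPeta (m : ℕ) : Bdd K fun c => (along (vel2 c))^[m] (PPeta c) :=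
  bdd_of_freg (freg_iter_rot m freg_PPeta 0)

/-- Smoothness of the derivatives of D along the plain flow. -/
theorem plain_smooth (m : ℕ) (c : Cx K) (k : Fin c.d) :
    FS c fun p => (along (vel1 c))^[m] (hval c) p k := by
  cases m with
  | zero => exact fs_hval c k
  | succ m => exact (freg_iter_plain m (φ := fd1 hval) freg_fd1_hval 0).fs c k

/-- Smoothness of the derivatives of D along the rotated flow. -/
theorem rot_smooth_hval (m : ℕ) (c : Cx K) (k : Fin c.d) :
    FS c fun p => (along (vel2 c))^[m] (hval c) p k := by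
  cases m with
  | zero => exact fs_hval c k
  | succ m =>
    exact (freg_iter_rot m (φ := fun c => along (vel2 c) (hval c)) freg_along_hval 0).fs c k

/-- Smoothness of the derivatives of Pη along the rotated flow. -/
theorem rot_smooth_Peta (m : ℕ) (c : Cx K) (k : Fin c.d) :
    FS c fun p => (along (vel2 c))^[m] (Peta c) p k :=
  (freg_iter_rot m freg_Peta 0).fs c k

/-- Smoothness of the derivatives of P²η along the rotated flow. -/
theorem rot_smooth_PPeta (m : ℕ) (c : Cx K) (k : Fin c.d) :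
    FS c fun p => (along (vel2 c))^[m] (PPeta c) p k :=
  (freg_iter_rot m freg_PPeta 0).fs c k

end Vale.Agent.P347.Zero.Calc
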