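import Vale.Agent.P347.Zero.Calc.Reg

/-!
The adjoint of the gradient: L² bound, commutation with space and flow derivatives, and closure
of `FReg` under all field operations.
-/

open Finset MeasureTheory Filter
open scoped ContDiff Topology

namespace Vale.Agent.P347.Zero.Calc

set_option linter.unusedVariables false
set_option linter.unusedSectionVars false

variable {K : ℕ → ℝ} {κ α β : Cx K → Type}
  [∀ c, Fintype (κ c)] [∀ c, Fintype (α c)] [∀ c, Fintype (β c)]

open Classical in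
lemma fmul_lift {ι : Cx K → Type} [∀ c, Fintype (ι c)] (a : XOp α β)
    (φ : XFld (fun c => ι c × β c)) (c : Cx K) (p : Pt c) (ik : ι c × α c) :
    fmul (xlift (ι := ι) a) φ c p ik =
      ∑ j, a c (scaleAt p.1) (posAt c p.1 p.2.1) ik.2 j * φ c p (ik.1, j) := by
  simp only [fmul, xlift]
  rw [Fintype.sum_prod_type, sum_eq_single ik.1]
  · simp [mlift]
  · intro b _ hb
    simp [mlift, Ne.symm hb]
  · simp

open Classical in
lemma fmul_tens (φ : XFld (fun c => Fin c.d × κ c)) (c : Cx K) (p : Pt c) (ik : Fin c.d × κ c) :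
    fmul (tens κ) φ c p ik =
      ∑ l, Pm K c (scaleAt p.1) (posAt c p.1 p.2.1) ik.1 l * φ c p (l, ik.2) := by
  simp only [fmul, tens, xre, xlift, Fintype.sum_prod_type]
  refine sum_congr rfl fun l _ => ?_
  rw [sum_eq_single ik.2]
  · simp [mlift]
  · intro b _ hb
    simp [mlift, Ne.symm hb]
  · simp

/-- The Hessian of the potential of the law applied to the first index. -/
noncomputable def hessW (W : XFld (fun c => Dir c × κ c)) : XFld (fun c => Dir c × κ c) :=
  fadd W (fpick (toXi κ) (ftime (ftime (fmul (tens κ) (fpick (ofXi κ) W)))))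

/-- Exchange of two direction indices. -/
def swapDir (κ : Cx K → Type) :
    ∀ c, Dir c × (Dir c × κ c) → Option (Dir c × (Dir c × κ c)) :=
  fun c ik => some (swap12 _ _ _ ik)

lemma pickInj_swapDir : PickInj (swapDir κ) := pickInj_equiv fun c => swap12 _ _ _

lemma fs_dir {c : Cx K} {f : Pt c → ℝ} (hf : FS c f) (v : Pt c) :
    FS c fun q => fderiv ℝ f q v :=
  (FS.fderiv' hf).clm_apply contDiffOn_const

lemma dp_dp {c : Cx K} {f : Pt c → ℝ} {p : Pt c} (hf : FS c f) (hp : p ∈ dom c) (i j : Dir c) :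
    dp (dp f i) j p = dp (dp f j) i p := by
  have hd : DifferentiableAt ℝ (fderiv ℝ f) p :=
    ((ContDiffOn.contDiffAt (FS.fderiv' hf) (dom_mem hp)) :
      ContDiffAt ℝ ∞ _ _).differentiableAt (by norm_num)
  have hs := (ContDiffOn.contDiffAt hf (dom_mem hp)).isSymmSndFDerivAt
    (by simp only [minSmoothness_of_isRCLikeNormedField]; norm_cast)
  show fderiv ℝ (fun q => fderiv ℝ f q (0, bz c i)) p (0, bz c j) =
    fderiv ℝ (fun q => fderiv ℝ f q (0, bz c j)) p (0, bz c i)
  rw [fderiv_clm_apply hd (differentiableAt_const _),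
    fderiv_clm_apply hd (differentiableAt_const _)]
  simpa using hs (0, bz c j) (0, bz c i)

lemma d1_dp {c : Cx K} {f : Pt c → ℝ} {p : Pt c} (hf : FS c f) (hp : p ∈ dom c) (i : Dir c) :
    d1 (dp f i) p = dp (d1 f) i p + Sum.elim (fun k => p.1 *
      ∑ l, Pm K c (scaleAt p.1) (posAt c p.1 p.2.1) k l * dp f (.inl l) p) (fun _ => 0) i := by
  have hd : DifferentiableAt ℝ (fderiv ℝ f) p :=
    ((ContDiffOn.contDiffAt (FS.fderiv' hf) (dom_mem hp)) :
      ContDiffAt ℝ ∞ _ _).differentiableAt (by norm_num)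
  have hs := (ContDiffOn.contDiffAt hf (dom_mem hp)).isSymmSndFDerivAt
    (by simp only [minSmoothness_of_isRCLikeNormedField]; norm_cast)
  have hv : DifferentiableAt ℝ (fun q : Pt c => ((1 : ℝ), vel1 c q)) p :=
    (differentiableAt_const _).prodMk
      (((fs_vel1 (c := c)).contDiffAt (dom_mem hp) : ContDiffAt ℝ ∞ _ _).differentiableAt
        (by norm_num))
  have e1 : d1 (dp f i) p = fderiv ℝ (fderiv ℝ f) p (1, vel1 c p) (0, bz c i) := by
    show fderiv ℝ (fun q => fderiv ℝ f q (0, bz c i)) p (1, vel1 c p) = _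
    rw [fderiv_clm_apply hd (differentiableAt_const _)]
    simp
  have e2 : dp (d1 f) i p = fderiv ℝ (fderiv ℝ f) p (0, bz c i) (1, vel1 c p) +
      fderiv ℝ f p (fderiv ℝ (fun q : Pt c => ((1 : ℝ), vel1 c q)) p (0, bz c i)) := by
    show fderiv ℝ (fun q => fderiv ℝ f q (1, vel1 c q)) p (0, bz c i) = _
    rw [fderiv_clm_apply hd hv]
    simp [add_comm]
  have e3 : fderiv ℝ (fun q : Pt c => ((1 : ℝ), vel1 c q)) p (0, bz c i) =
      ∑ l, (-(Sum.elim (fun k => p.1 * Pm K c (scaleAt p.1) (posAt c p.1 p.2.1) k l)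
        (fun _ => 0) i)) • ((0 : ℝ), bz c (.inl l)) := by
    have hD : DifferentiableAt ℝ (fun q : Pt c => c.D (scaleAt q.1) (posAt c q.1 q.2.1)) p :=
      ((c.smooth.comp (contDiff_upt c).contDiffOn (upt_maps c)).contDiffAt (dom_mem hp) :
        ContDiffAt ℝ ∞ _ _).differentiableAt (by norm_num)
    have hD' : HasFDerivAt (fun q : Pt c => ((1 : ℝ), vel1 c q)) _ p :=
      (hasFDerivAt_const (1 : ℝ) p).prodMk (hD.hasFDerivAt.neg.prodMk
        (hasFDerivAt_const (0 : EE c.d) p))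
    rw [hD'.fderiv]
    refine Prod.ext (by simp [Prod.fst_sum]) ?_
    refine Prod.ext ?_ ?_
    · simp only [Prod.snd_sum, Prod.smul_snd, Prod.fst_sum, Prod.smul_fst,
        fun l => (rfl : bz c (Sum.inl l) = (ev l, 0))]
      simp only [ContinuousLinearMap.prod_apply, neg_apply]
      refine (sum_ev _).trans (sum_congr rfl fun l _ => ?_)
      congr 1
      rw [PiLp.neg_apply, neg_inj,
        show (fderiv ℝ (fun q : Pt c => c.D (scaleAt q.1) (posAt c q.1 q.2.1)) p (0, bz c i)) l =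
          dp (fun q : Pt c => c.D (scaleAt q.1) (posAt c q.1 q.2.1) l) i p from ?_,
        dp_upt (sm_comp_D c l) hp]
      · cases i <;> rfl
      · show _ = fderiv ℝ ((EuclideanSpace.proj l : EE c.d →L[ℝ] ℝ) ∘
          fun q : Pt c => c.D (scaleAt q.1) (posAt c q.1 q.2.1)) p (0, bz c i)
        erw [((EuclideanSpace.proj l : EE c.d →L[ℝ] ℝ).hasFDerivAt.comp p hD.hasFDerivAt).fderiv]
        rfl
    · simp [Prod.snd_sum, bz]
  rw [e1, e2, e3, hs, map_sum]
  simp only [map_smul, smul_eq_mul, neg_mul, sum_neg_distrib]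
  cases i <;> simp [dp, mul_sum, mul_assoc]

lemma grd_dlt {W : XFld (fun c => Dir c × κ c)} (hs : ∀ c ik, FS c fun p => W c p ik)
    (c : Cx K) (p : Pt c) (hp : p ∈ dom c) :
    grd (dlt W) c p = fadd (dlt (fpick (swapDir κ) (grd W))) (hessW W) c p := by
  classical
  funext ik
  obtain ⟨i, k⟩ := ik
  show dp (fun q => ∑ j, (cmp c j q * W c q (j, k) - dp (fun q => W c q (j, k)) j q)) i p = _
  rw [dp_sum (fun j => ((fs_cmp j).mul (hs c (j, k))).sub (fs_dp (hs c (j, k)) j)) hp]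
  have e : ∀ j, dp (fun q => cmp c j q * W c q (j, k) - dp (fun q => W c q (j, k)) j q) i p =
      (cmp c j p * dp (fun q => W c q (j, k)) i p -
        dp (fun q => dp (fun q => W c q (j, k)) i q) j p) +
      ((if i = j then 1 else 0) * W c p (j, k) + (match i, j with
        | .inl a, .inl l => p.1 * p.1 * Pm K c (scaleAt p.1) (posAt c p.1 p.2.1) a l
        | _, _ => 0) * W c p (j, k)) := fun j => by
    rw [dp_sub ((fs_cmp j).mul (hs c (j, k))) (fs_dp (hs c (j, k)) j) hp,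
      dp_mul (fs_cmp j) (hs c (j, k)) hp, dp_cmp hp, dp_dp (hs c (j, k)) hp j i]
    cases i <;> cases j <;> ring
  simp only [e, sum_add_distrib]
  show _ = dlt (fpick (swapDir κ) (grd W)) c p (i, k) +
    (W c p (i, k) + fpick (toXi κ) (ftime (ftime (fmul (tens κ) (fpick (ofXi κ) W)))) c p (i, k))
  congr 1
  congr 1
  · simp
  · simp only [Fintype.sum_sum_type]
    cases i with
    | inl a => simp [fpick, toXi, ftime, fmul_tens, ofXi, mul_sum, mul_assoc]
    | inr a => simp [fpick, toXi]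

lemma d1_dlt {W : XFld (fun c => Dir c × κ c)} (hs : ∀ c ik, FS c fun p => W c p ik)
    (c : Cx K) (p : Pt c) (hp : p ∈ dom c) :
    fd1 (dlt W) c p = dlt (fadd (fd1 W)
      (fpick (toXi κ) (ftime (fmul (tens κ) (fpick (ofXi κ) W))))) c p := by
  classical
  funext k
  set u := scaleAt p.1 with hu
  set x := posAt c p.1 p.2.1 with hx
  show d1 (fun q => ∑ j, (cmp c j q * W c q (j, k) - dp (fun q => W c q (j, k)) j q)) p = _
  rw [d1_sum (fun j => ((fs_cmp j).mul (hs c (j, k))).sub (fs_dp (hs c (j, k)) j)) hp]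
  have e : ∀ j, d1 (fun q => cmp c j q * W c q (j, k) - dp (fun q => W c q (j, k)) j q) p =
      d1 (cmp c j) p * W c p (j, k) + cmp c j p * d1 (fun q => W c q (j, k)) p -
        d1 (dp (fun q => W c q (j, k)) j) p := fun j => by
    rw [d1_sub ((fs_cmp j).mul (hs c (j, k))) (fs_dp (hs c (j, k)) j) hp,
      d1_mul (fs_cmp j) (hs c (j, k)) hp]
  have hX : ∀ (q : Pt c) (i : Dir c),
      fpick (toXi κ) (ftime (fmul (tens κ) (fpick (ofXi κ) W))) c q (i, k) =
        Sum.elim (fun a => q.1 * ∑ l, Pm K c (scaleAt q.1) (posAt c q.1 q.2.1) a l *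
          W c q (.inl l, k)) (fun _ : Fin c.d => (0 : ℝ)) i := fun q i => by
    cases i <;> simp [fpick, toXi, ftime, fmul_tens, ofXi]
  have sP : ∀ a l, Sm fun v y => Pm K c v y a l := fun a l => xall_Pm.base.1 c a l
  have sW : ∀ a, FS c fun q => ∑ l, Pm K c (scaleAt q.1) (posAt c q.1 q.2.1) a l *
      W c q (.inl l, k) := fun a => fs_sum fun l => (fs_upt (sP a l)).mul (hs c (.inl l, k))
  have sX : ∀ i, FS c fun q => Sum.elim (fun a => q.1 * ∑ l,
      Pm K c (scaleAt q.1) (posAt c q.1 q.2.1) a l * W c q (.inl l, k)) (fun _ : Fin c.d => (0 : ℝ)) i := fun i => by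
    cases i with
    | inl a => exact fs_time.mul (sW a)
    | inr a => exact fs_const 0
  simp only [e, d1_cmp hp, d1_dp (hs c (_, k)) hp, dlt, fadd, fd1, hX]
  simp only [fun i => dp_add (fs_d1 (hs c (i, k))) (sX i) hp i, Fintype.sum_sum_type,
    Sum.elim_inl, Sum.elim_inr, dp_const, mul_zero, add_zero, zero_mul, zero_add,
    fun a => dp_mul fs_time (sW a) hp (Sum.inl a), dp_time,
    fun a => dp_sum (fun l => (fs_upt (sP a l)).mul (hs c (.inl l, k))) hp (Sum.inl a),
    fun a l => dp_mul (fs_upt (sP a l)) (hs c (.inl l, k)) hp (Sum.inl a),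
    fun a l => dp_upt (sP a l) hp (Sum.inl a)]
  congr 1
  simp only [sum_sub_distrib, sum_add_distrib, sub_mul, mul_add, sum_mul, mul_sum, ← hu, ← hx]
  have k1 : ∑ a, ∑ l, cmp c (.inl l) p * (p.1 * Pm K c u x l a) * W c p (.inl a, k) =
      ∑ a, ∑ l, cmp c (.inl a) p * (p.1 * (Pm K c u x a l * W c p (.inl l, k))) := by
    rw [sum_comm]
    exact sum_congr rfl fun a _ => sum_congr rfl fun l _ => by ring
  have k2 : ∑ a, ∑ l, p.1 * p.1 * dx (dx (fun v y => c.D v y a) l) l u x * W c p (.inl a, k) =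
      ∑ a, ∑ l, p.1 * (p.1 * dx (fun v y => Pm K c v y a l) a u x * W c p (.inl l, k)) := by
    rw [sum_comm]
    refine sum_congr rfl fun a _ => sum_congr rfl fun l _ => ?_
    rw [show (fun v y => Pm K c v y a l) = dx (fun v y => c.D v y l) a from rfl]
    ring
  have k3 : ∑ a, ∑ l, p.1 * (Pm K c u x a l * dp (fun q => W c q (.inl a, k)) (.inl l) p) =
      ∑ a, ∑ l, p.1 * (Pm K c u x a l * dp (fun q => W c q (.inl l, k)) (.inl a) p) := by
    rw [sum_comm]
    refine sum_congr rfl fun a _ => sum_congr rfl fun l _ => ?_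
    rw [show Pm K c u x l a = Pm K c u x a l from c.symm u (scaleAt_mem hp.1) x l a]
  rw [k1, k2, k3]
  ring

/-- Smooth and of polynomial growth. -/
def FSPG (φ : XFld κ) : Prop :=
  (∀ c k, FS c fun p => φ c p k) ∧ ∀ c k, PG c fun p => φ c p k

lemma FBase.fspg {φ : XFld κ} (h : FBase φ) : FSPG φ := ⟨h.1, h.2.1⟩

/-- The adjointness of `dlt` and `grd`. -/
theorem adjoint {ψ : XFld κ} {Y : XFld (fun c => Dir c × κ c)} (hψ : FSPG ψ) (hψ' : FSPG (grd ψ))
    (hY : FSPG Y) (hY' : FSPG (grd Y)) (c : Cx K) {r : ℝ} (hr : r ∈ times) :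
    ∫ z, (∑ k, ψ c (r, z) k * dlt Y c (r, z) k) * wgt c r z =
      ∫ z, (∑ ik, grd ψ c (r, z) ik * Y c (r, z) ik) * wgt c r z := by
  have sf : ∀ i k, FS c fun p => ψ c p k * Y c p (i, k) := fun i k => (hψ.1 c k).mul (hY.1 c _)
  have gf : ∀ i k, PG c fun p => ψ c p k * Y c p (i, k) := fun i k =>
    (hψ.2 c k).mul (hY.2 c _)
  have gd : ∀ i k j, PG c (dp (fun p => ψ c p k * Y c p (i, k)) j) := fun i k j =>
    (((hψ'.2 c (j, k)).mul (hY.2 c (i, k))).add
      ((hψ.2 c k).mul (hY'.2 c (j, (i, k))))).congr fun q hq =>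
        dp_mul (hψ.1 c k) (hY.1 c (i, k)) hq j
  have h0 : ∀ i k, ∫ z, (cmp c i (r, z) * (ψ c (r, z) k * Y c (r, z) (i, k)) -
      dp (fun p => ψ c p k * Y c p (i, k)) i (r, z)) * wgt c r z = 0 := fun i k =>
    ibp (sf i k) (gf i k) (gd i k) i hr
  have hint : ∀ i k, Integrable fun z => (cmp c i (r, z) * (ψ c (r, z) k * Y c (r, z) (i, k)) -
      dp (fun p => ψ c p k * Y c p (i, k)) i (r, z)) * wgt c r z := fun i k =>
    integrable_pg ((((fs_cmp i).mul (sf i k))).sub (fs_dp (sf i k) i))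
      ((((pg_cmp i).mul (gf i k))).sub (gd i k i)) hr
  have hR : Integrable fun z => (∑ ik, grd ψ c (r, z) ik * Y c (r, z) ik) * wgt c r z :=
    integrable_pg (fs_sum fun ik => (hψ'.1 c ik).mul (hY.1 c ik))
      (pg_sum fun ik => (hψ'.2 c ik).mul (hY.2 c ik)) hr
  have e : ∀ z, (∑ k, ψ c (r, z) k * dlt Y c (r, z) k) * wgt c r z =
      (∑ k, ∑ i, (cmp c i (r, z) * (ψ c (r, z) k * Y c (r, z) (i, k)) -
        dp (fun p => ψ c p k * Y c p (i, k)) i (r, z)) * wgt c r z) +
      (∑ ik, grd ψ c (r, z) ik * Y c (r, z) ik) * wgt c r z := fun z => by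
    simp only [← sum_mul, ← add_mul]
    congr 1
    rw [Fintype.sum_prod_type, sum_comm (γ := Dir c), ← sum_add_distrib]
    refine sum_congr rfl fun i _ => ?_
    rw [← sum_add_distrib]
    simp only [dlt, mul_sum]
    refine sum_congr rfl fun j _ => ?_
    rw [dp_mul (hψ.1 c i) (hY.1 c (j, i)) ⟨hr, trivial⟩]
    simp only [grd]
    ring
  simp only [e]
  rw [integral_add (integrable_finsetSum _ fun k _ => integrable_finsetSum _ fun i _ => hint i k) hR,
    integral_finsetSum _ fun k _ => integrable_finsetSum _ fun i _ => hint i k]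
  rw [sum_eq_zero fun k _ => ?_, zero_add]
  rw [integral_finsetSum _ fun i _ => hint i k]
  exact sum_eq_zero fun i _ => h0 i k

lemma fgood_hessW {j : ℕ} {W : XFld (fun c => Dir c × κ c)} (h : FGood j W) :
    FGood j (hessW W) :=
  fgood_add j h (fgood_pick j pickInj_toXi (fgood_time j (fgood_time j (fgood_mul j
    (xgood_re j _ _ (xgood_lift j (xall_Pm j))) (fgood_pick j pickInj_ofXi h)))))

lemma fbase_dlt {W : XFld (fun c => Dir c × κ c)} (h : FGood 2 W) : FBase (dlt W) := by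
  obtain ⟨hW, hW1, hW2⟩ := h
  have hs : ∀ c k, FS c fun p => dlt W c p k := fun c k =>
    fs_sum fun i => ((fs_cmp i).mul (hW.1 c (i, k))).sub (fs_dp (hW.1 c (i, k)) i)
  have hg : ∀ c k, PG c fun p => dlt W c p k := fun c k =>
    pg_sum fun i => ((pg_cmp i).mul (hW.2.1 c (i, k))).sub (hW1.2.1 c (i, (i, k)))
  have hH : FBase (hessW W) := fgood_hessW (j := 0) hW
  have hsw : FGood 1 (fpick (swapDir κ) (grd W)) := fgood_pick 1 pickInj_swapDir ⟨hW1, hW2⟩
  obtain ⟨A, hA, bA⟩ := hW.2.2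
  obtain ⟨B, hB, bB⟩ := hW1.2.2
  obtain ⟨B', hB', bB'⟩ := hsw.base.2.2
  obtain ⟨E, hE, bE⟩ := hH.2.2
  refine ⟨hs, hg, B + B' + A + E, by positivity, fun c r hr => ?_⟩
  have i1 := integrable_sq hW.1 hW.2.1 c hr
  have i2 := integrable_sq hW1.1 hW1.2.1 c hr
  have i2' := integrable_sq hsw.base.1 hsw.base.2.1 c hr
  have i3 := integrable_sq hH.1 hH.2.1 c hr
  have gdlt : ∀ c ik, PG c fun p => grd (dlt W) c p ik := fun c ik => by
    refine PG.congr (f := fun p => fadd (dlt (fpick (swapDir κ) (grd W))) (hessW W) c p ik) ?_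
      fun q hq => congrFun (grd_dlt hW.1 c q hq) ik
    exact (pg_sum fun i => ((pg_cmp i).mul (hsw.base.2.1 c (i, ik))).sub
      (hsw.2.2.1 c (i, (i, ik)))).add (hH.2.1 c ik)
  have fdlt : ∀ c ik, FS c fun p => grd (dlt W) c p ik := fun c ik =>
    fs_dp (hs c ik.2) ik.1
  have a0 := adjoint (ψ := dlt W) (Y := W) ⟨hs, hg⟩ ⟨fdlt, gdlt⟩ hW.fspg hW1.fspg c hr
  have h1 : sqn c (dlt W c) r =
      ∫ z, (∑ ik, grd (dlt W) c (r, z) ik * W c (r, z) ik) * wgt c r z := by
    rw [← a0, sqn]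
    exact integral_congr_ae (Eventually.of_forall fun z => by simp only [pow_two])
  have a1 := adjoint hW.fspg hW1.fspg hsw.base.fspg hsw.2.fspg c hr
  have isw : Integrable fun z =>
      (∑ ik, W c (r, z) ik * dlt (fpick (swapDir κ) (grd W)) c (r, z) ik) * wgt c r z :=
    integrable_pg (fs_sum fun ik => (hW.1 c ik).mul (fs_sum fun i =>
      ((fs_cmp i).mul (hsw.base.1 c _)).sub (fs_dp (hsw.base.1 c _) i)))
      (pg_sum fun ik => (hW.2.1 c ik).mul (pg_sum fun i =>
        ((pg_cmp i).mul (hsw.base.2.1 c _)).sub (hsw.2.2.1 c (i, (i, ik))))) hr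
  have ih : Integrable fun z => (∑ ik, W c (r, z) ik * hessW W c (r, z) ik) * wgt c r z :=
    integrable_pg (fs_sum fun ik => (hW.1 c ik).mul (hH.1 c ik))
      (pg_sum fun ik => (hW.2.1 c ik).mul (hH.2.1 c ik)) hr
  have h2 : sqn c (dlt W c) r =
      (∫ z, (∑ q, grd W c (r, z) q * fpick (swapDir κ) (grd W) c (r, z) q) * wgt c r z) +
        ∫ z, (∑ ik, W c (r, z) ik * hessW W c (r, z) ik) * wgt c r z := by
    rw [h1, ← a1, ← integral_add isw ih]
    refine integral_congr_ae (Eventually.of_forall fun z => ?_)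
    simp only [grd_dlt hW.1 c (r, z) ⟨hr, trivial⟩, fadd, ← add_mul, ← sum_add_distrib]
    congr 1
    exact sum_congr rfl fun ik _ => by ring
  have cs : ∀ {ι : Type} [Fintype ι] (a b : ι → ℝ) (w : ℝ), 0 ≤ w →
      (∑ i, a i * b i) * w ≤ (∑ i, a i ^ 2) * w + (∑ i, b i ^ 2) * w := fun a b w hw => by
    rw [← add_mul, ← sum_add_distrib]
    refine mul_le_mul_of_nonneg_right (sum_le_sum fun i _ => ?_) hw
    nlinarith [sq_nonneg (a i - b i), sq_nonneg (a i), sq_nonneg (b i)]
  have m1 : (∫ z, (∑ q, grd W c (r, z) q * fpick (swapDir κ) (grd W) c (r, z) q) * wgt c r z) ≤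
      sqn c (grd W c) r + sqn c (fpick (swapDir κ) (grd W) c) r := by
    rw [sqn, sqn, ← integral_add i2 i2']
    exact integral_mono (integrable_pg (fs_sum fun q => (hW1.1 c q).mul (hsw.base.1 c q))
      (pg_sum fun q => (hW1.2.1 c q).mul (hsw.base.2.1 c q)) hr) (i2.add i2')
      fun z => cs _ _ _ (wgt_pos r z).le
  have m2 : (∫ z, (∑ ik, W c (r, z) ik * hessW W c (r, z) ik) * wgt c r z) ≤
      sqn c (W c) r + sqn c (hessW W c) r := by
    rw [sqn, sqn, ← integral_add i1 i3]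
    exact integral_mono ih (i1.add i3) fun z => cs _ _ _ (wgt_pos r z).le
  linarith [bA c r hr, bB c r hr, bB' c r hr, bE c r hr]

lemma fgood_dlt : ∀ (j : ℕ) {κ : Cx K → Type} [∀ c, Fintype (κ c)]
    {W : XFld (fun c => Dir c × κ c)}, FGood (j + 2) W → FGood j (dlt W)
  | 0, _, _, _, h => fbase_dlt h
  | j + 1, _, _, W, h =>
    have h2 : FGood 2 W := by
      induction j with
      | zero => exact FGood.down 2 h
      | succ j ih => exact ih (FGood.down (j + 3) h)
    ⟨fbase_dlt h2, FGood.congr j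
      (fgood_add j (fgood_dlt j (fgood_pick (j + 2) pickInj_swapDir h.2))
        (fgood_hessW (FGood.down j (FGood.down (j + 1) (FGood.down (j + 2) h)))))
      fun c p hp => grd_dlt h.1.1 c p hp⟩

end Vale.Agent.P347.Zero.Calc
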