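import Vale.Agent.P347.Zero.Calc.Dlt

/-!
`FReg m` is closed under all field operations.
-/

open Finset
open scoped ContDiff Topology

namespace Vale.Agent.P347.Zero.Calc

set_option linter.unusedVariables false
set_option linter.unusedSectionVars false

variable {K : ℕ → ℝ} {κ α β : Cx K → Type}
  [∀ c, Fintype (κ c)] [∀ c, Fintype (α c)] [∀ c, Fintype (β c)]

lemma FReg.fs {m : ℕ} {φ : XFld κ} (h : FReg m φ) (c : Cx K) (k : κ c) :
    FS c fun p => φ c p k := h.all.base.1 c k

lemma fd1_fmul {a : XOp α β} {φ : XFld β} (ha : XAll a) (hs : ∀ c k, FS c fun p => φ c p k)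
    (c : Cx K) (p : Pt c) (hp : p ∈ dom c) : fd1 (fmul a φ) c p =
      fadd (fmul a (fd1 φ))
        (fadd (fadd (dlt (fpick (toXi α) (fmul (xout a) φ))) (fmul (xin a) (fpick (ofXi β) (grd φ))))
          (fsmul (-2) (ftime (fmul (xhs a) φ)))) c p := by
  classical
  funext i
  have sa := ha.base.1 c i
  set u := scaleAt p.1 with hu
  set x := posAt c p.1 p.2.1 with hx
  show d1 (fun q => ∑ j, a c (scaleAt q.1) (posAt c q.1 q.2.1) i j * φ c q j) p = _
  rw [d1_sum (fun j => (fs_upt (sa j)).mul (hs c j)) hp]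
  simp only [fun j => d1_mul (fs_upt (sa j)) (hs c j) hp, fun j => d1_upt (sa j) hp, ← hu, ← hx]
  have hW : ∀ (q : Pt c) (d : Dir c), fpick (toXi α) (fmul (xout a) φ) c q (d, i) =
      Sum.elim (fun k => ∑ j, dx (fun u x => a c u x i j) k (scaleAt q.1) (posAt c q.1 q.2.1) *
        φ c q j) (fun _ : Fin c.d => (0 : ℝ)) d := fun q d => by
    cases d <;> simp [fpick, toXi, fmul, xout]
  simp only [fadd, fsmul, ftime, dlt, hW, Fintype.sum_sum_type, Sum.elim_inl, Sum.elim_inr, dp_const,
    mul_zero, sub_zero, sum_const_zero, add_zero]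
  simp only [fun k => dp_sum (fun j => (fs_upt (sm_dx (sa j) k)).mul (hs c j)) hp (Sum.inl k),
    fun k j => dp_mul (fs_upt (sm_dx (sa j) k)) (hs c j) hp (Sum.inl k),
    fun k j => dp_upt (sm_dx (sa j) k) hp (Sum.inl k), Sum.elim_inl, ← hu, ← hx]
  simp only [fmul, fd1, xin, xhs, fpick, ofXi, grd, Option.elim, ← hu, ← hx,
    Fintype.sum_prod_type]
  simp only [sum_sub_distrib, sum_add_distrib, add_mul, sub_mul, mul_sum, sum_mul]
  have k1 : ∑ j, ∑ k, cmp c (Sum.inl k) p * dx (fun u x => a c u x i j) k u x * φ c p j =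
      ∑ k, ∑ j, cmp c (Sum.inl k) p * (dx (fun u x => a c u x i j) k u x * φ c p j) := by
    rw [sum_comm]
    exact sum_congr rfl fun k _ => sum_congr rfl fun j _ => by ring
  have k2 : ∑ j, ∑ k, p.1 * dx (dx (fun u x => a c u x i j) k) k u x * φ c p j =
      ∑ k, ∑ j, p.1 * dx (dx (fun u x => a c u x i j) k) k u x * φ c p j := sum_comm
  have k3 : ∑ j, -2 * (p.1 * (Calc.hs c.D (fun u x => a c u x i j) u x * φ c p j)) =
      ∑ j, -(2 * p.1) * Calc.hs c.D (fun u x => a c u x i j) u x * φ c p j :=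
    sum_congr rfl fun j _ => by ring
  rw [k1, k2, k3]
  ring

/-- The closure properties of fields at level m. -/
structure FClosed (K : ℕ → ℝ) (m : ℕ) : Prop where
  add : ∀ {κ : Cx K → Type} [∀ c, Fintype (κ c)] {φ ψ : XFld κ},
    FReg m φ → FReg m ψ → FReg m (fadd φ ψ)
  smul : ∀ {κ : Cx K → Type} [∀ c, Fintype (κ c)] {φ : XFld κ} (t : ℝ),
    FReg m φ → FReg m (fsmul t φ)
  time : ∀ {κ : Cx K → Type} [∀ c, Fintype (κ c)] {φ : XFld κ}, FReg m φ → FReg m (ftime φ)
  pick : ∀ {κ κ' : Cx K → Type} [∀ c, Fintype (κ c)] [∀ c, Fintype (κ' c)] {φ : XFld κ}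
    {e : ∀ c, κ' c → Option (κ c)}, PickInj e → FReg m φ → FReg m (fpick e φ)
  mul : ∀ {α β : Cx K → Type} [∀ c, Fintype (α c)] [∀ c, Fintype (β c)] {a : XOp α β}
    {φ : XFld β}, XReg m a → FReg m φ → FReg m (fmul a φ)
  grd : ∀ {κ : Cx K → Type} [∀ c, Fintype (κ c)] {φ : XFld κ}, FReg m φ → FReg m (grd φ)
  dlt : ∀ {κ : Cx K → Type} [∀ c, Fintype (κ c)] {W : XFld (fun c => Dir c × κ c)},
    FReg m W → FReg m (dlt W)

lemma xreg_tens (m : ℕ) : XReg m (tens κ) := (xclosed m).re _ _ ((xclosed m).lift (xreg_Pm m))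

lemma fd1_grd {φ : XFld κ} (hs : ∀ c k, FS c fun p => φ c p k) (c : Cx K) (p : Pt c)
    (hp : p ∈ dom c) : fd1 (grd φ) c p =
      fadd (grd (fd1 φ)) (fpick (toXi κ) (ftime (fmul (tens κ) (fpick (ofXi κ) (grd φ))))) c p := by
  funext ik
  obtain ⟨i, k⟩ := ik
  show d1 (dp (fun q => φ c q k) i) p = _
  rw [d1_dp (hs c k) hp i]
  cases i <;> simp [fadd, fpick, toXi, ftime, fmul_tens, ofXi, grd, fd1]

theorem fclosed : ∀ m : ℕ, FClosed K m
  | 0 =>
    { add := fun h h' j => fgood_add j (h j) (h' j)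
      smul := fun t h j => fgood_smul j t (h j)
      time := fun h j => fgood_time j (h j)
      pick := fun he h j => fgood_pick j he (h j)
      mul := fun ha h j => fgood_mul j (ha j) (h j)
      grd := fun h => FAll.grd h
      dlt := fun h j => fgood_dlt j (h (j + 2)) }
  | m + 1 =>
    have H : FClosed K m := fclosed m
    { add := fun {κ} _ {φ ψ} h h' =>
        ⟨fun j => fgood_add j (h.1 j) (h'.1 j), FReg.congr m (H.add h.2 h'.2) fun c p hp =>
          funext fun k => d1_add (h.fs c k) (h'.fs c k) hp⟩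
      smul := fun {κ} _ {φ} t h =>
        ⟨fun j => fgood_smul j t (h.1 j), FReg.congr m (H.smul t h.2) fun c p hp =>
          funext fun k => by
            refine (d1_mul (fs_const t) (h.fs c k) hp).trans ?_
            simp [d1_const, fsmul, fd1]⟩
      time := fun {κ} _ {φ} h =>
        ⟨fun j => fgood_time j (h.1 j),
          FReg.congr m (H.add (FReg.down m h) (H.time h.2)) fun c p hp => funext fun k => by
            refine (d1_mul fs_time (h.fs c k) hp).trans ?_
            simp [d1_time, ftime, fd1, fadd]⟩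
      pick := fun {κ κ'} _ _ {φ e} he h =>
        ⟨fun j => fgood_pick j he (h.1 j), FReg.congr m (H.pick he h.2) fun c p hp =>
          funext fun k => by
            cases he' : e c k with
            | none => simp [fd1, fpick, he', d1_const]
            | some i => simp [fd1, fpick, he']⟩
      mul := fun {α β} _ _ {a φ} ha h =>
        ⟨fun j => fgood_mul j (ha.1 j) (h.1 j),
          FReg.congr m (H.add (H.mul (XReg.down m ha) h.2)
            (H.add (H.add (H.dlt (H.pick pickInj_toXi (H.mul ha.2.1 (FReg.down m h))))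
              (H.mul ha.2.2.1 (H.pick pickInj_ofXi (H.grd (FReg.down m h)))))
              (H.smul (-2) (H.time (H.mul ha.2.2.2 (FReg.down m h))))))
            fun c p hp => fd1_fmul ha.1 h.all.base.1 c p hp⟩
      grd := fun {κ} _ {φ} h =>
        ⟨FAll.grd h.1,
          FReg.congr m (H.add (H.grd h.2) (H.pick pickInj_toXi (H.time (H.mul (xreg_tens m)
            (H.pick pickInj_ofXi (H.grd (FReg.down m h)))))))
            fun c p hp => fd1_grd h.all.base.1 c p hp⟩
      dlt := fun {κ} _ {W} h =>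
        ⟨fun j => fgood_dlt j (h.1 (j + 2)),
          FReg.congr m (H.dlt (H.add h.2 (H.pick pickInj_toXi (H.time (H.mul (xreg_tens m)
            (H.pick pickInj_ofXi (FReg.down m h)))))))
            fun c p hp => d1_dlt h.all.base.1 c p hp⟩ }

end Vale.Agent.P347.Zero.Calc
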