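import Vale.Agent.P347.Zero.Calc.XReg

/-!
Fields on (time, ξ, η): directions, derivatives along constant and flow directions, and the
adjoints of the spatial derivatives for the weights `wgt`.
-/

open Finset MeasureTheory
open scoped ContDiff Topology

namespace Vale.Agent.P347.Zero.Calc

set_option linter.unusedVariables false
set_option linter.unusedSectionVars false

variable {K : ℕ → ℝ}

/-- Space directions. -/
abbrev Dir (c : Cx K) := Fin c.d ⊕ Fin c.d

/-- A space direction as a vector. -/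
noncomputable def bz (c : Cx K) : Dir c → EE c.d × EE c.d
  | .inl k => (ev k, 0)
  | .inr k => (0, ev k)

/-- The domain of the fields. -/
def dom (c : Cx K) : Set (Pt c) := times ×ˢ Set.univ

lemma dom_mem {c : Cx K} {p : Pt c} (hp : p ∈ dom c) : dom c ∈ 𝓝 p :=
  (isOpen_Ioo.prod isOpen_univ).mem_nhds hp

lemma scaleAt_mem {r : ℝ} (hr : r ∈ times) : scaleAt r ∈ scales := by
  obtain ⟨h1, h2⟩ := hr
  constructor <;> simp only [scaleAt] <;> nlinarith

/-- Smooth scalar fields. -/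
def FS (c : Cx K) (f : Pt c → ℝ) : Prop := ContDiffOn ℝ ∞ f (dom c)

/-- Derivative in a space direction. -/
noncomputable def dp {c : Cx K} (f : Pt c → ℝ) (i : Dir c) (p : Pt c) : ℝ :=
  fderiv ℝ f p (0, bz c i)

/-- Derivative along the plain flow. -/
noncomputable def d1 {c : Cx K} (f : Pt c → ℝ) (p : Pt c) : ℝ := fderiv ℝ f p (1, vel1 c p)

/-- The evaluation point of a function of (scale, position). -/
noncomputable def upt (c : Cx K) (p : Pt c) : ℝ × EE c.d := (scaleAt p.1, posAt c p.1 p.2.1)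

/-- The coordinates of the gradient of the potential of the law. -/
noncomputable def cmp (c : Cx K) : Dir c → Pt c → ℝ
  | .inl k, p => p.2.1 k + p.1 * c.D (scaleAt p.1) (posAt c p.1 p.2.1) k
  | .inr k, p => p.2.2 k

variable {c : Cx K} {f g : Pt c → ℝ} {p : Pt c}

lemma FS.diff (hf : FS c f) (hp : p ∈ dom c) : DifferentiableAt ℝ f p :=
  ((ContDiffOn.contDiffAt hf (dom_mem hp)) : ContDiffAt ℝ ∞ f p).differentiableAt (by norm_num)

lemma FS.fderiv' (hf : FS c f) : ContDiffOn ℝ ∞ (fderiv ℝ f) (dom c) :=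
  hf.fderiv_of_isOpen (isOpen_Ioo.prod isOpen_univ) le_rfl

lemma fs_dp (hf : FS c f) (i : Dir c) : FS c (dp f i) :=
  (FS.fderiv' hf).clm_apply contDiffOn_const

lemma fs_const (a : ℝ) : FS c fun _ => a := contDiffOn_const

lemma fs_time : FS c fun p => p.1 := contDiff_fst.contDiffOn

lemma fs_xi (k : Fin c.d) : FS c fun p => p.2.1 k :=
  ((EuclideanSpace.proj k : EE c.d →L[ℝ] ℝ).contDiff.comp
    (contDiff_fst.comp contDiff_snd)).contDiffOn

lemma fs_eta (k : Fin c.d) : FS c fun p => p.2.2 k :=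
  ((EuclideanSpace.proj k : EE c.d →L[ℝ] ℝ).contDiff.comp
    (contDiff_snd.comp contDiff_snd)).contDiffOn

lemma FS.add (hf : FS c f) (hg : FS c g) : FS c fun p => f p + g p := ContDiffOn.add hf hg

lemma FS.sub (hf : FS c f) (hg : FS c g) : FS c fun p => f p - g p := ContDiffOn.sub hf hg

lemma FS.mul (hf : FS c f) (hg : FS c g) : FS c fun p => f p * g p := ContDiffOn.mul hf hg

lemma fs_sum {ι : Type} [Fintype ι] {F : ι → Pt c → ℝ} (h : ∀ i, FS c (F i)) :
    FS c fun p => ∑ i, F i p :=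
  ContDiffOn.sum fun i _ => h i

lemma contDiff_upt (c : Cx K) : ContDiff ℝ ∞ (upt c) := by
  unfold upt scaleAt posAt
  fun_prop

lemma upt_maps (c : Cx K) : Set.MapsTo (upt c) (dom c) (scales ×ˢ Set.univ) :=
  fun p hp => ⟨scaleAt_mem hp.1, trivial⟩

lemma fs_upt {G : ℝ → EE c.d → ℝ} (hG : Sm G) :
    FS c fun p => G (scaleAt p.1) (posAt c p.1 p.2.1) :=
  ContDiffOn.comp (g := fun q : ℝ × EE c.d => G q.1 q.2) hG (contDiff_upt c).contDiffOn (upt_maps c)

lemma fs_vel1 : ContDiffOn ℝ ∞ (fun p => vel1 c p) (dom c) :=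
  ((c.smooth.comp (contDiff_upt c).contDiffOn (upt_maps c)).neg).prodMk contDiffOn_const

lemma fs_d1 (hf : FS c f) : FS c (d1 f) :=
  (FS.fderiv' hf).clm_apply (contDiffOn_const.prodMk fs_vel1)

lemma fs_cmp : ∀ i : Dir c, FS c (cmp c i)
  | .inl k => (fs_xi k).add (fs_time.mul (fs_upt (sm_comp_D c k)))
  | .inr k => fs_eta k

lemma dp_congr {f g : Pt c → ℝ} (hp : p ∈ dom c) (h : ∀ q ∈ dom c, f q = g q) (i : Dir c) :
    dp f i p = dp g i p := by
  rw [dp, dp, Filter.EventuallyEq.fderiv_eq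
    (Filter.eventually_of_mem (dom_mem hp) h : f =ᶠ[𝓝 p] g)]

lemma d1_congr {f g : Pt c → ℝ} (hp : p ∈ dom c) (h : ∀ q ∈ dom c, f q = g q) :
    d1 f p = d1 g p := by
  rw [d1, d1, Filter.EventuallyEq.fderiv_eq
    (Filter.eventually_of_mem (dom_mem hp) h : f =ᶠ[𝓝 p] g)]

lemma dp_const (a : ℝ) (i : Dir c) : dp (fun _ : Pt c => a) i p = 0 := by simp [dp]

lemma d1_const (a : ℝ) : d1 (fun _ : Pt c => a) p = 0 := by simp [d1]

lemma dp_add (hf : FS c f) (hg : FS c g) (hp : p ∈ dom c) (i : Dir c) :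
    dp (fun p => f p + g p) i p = dp f i p + dp g i p := by
  simp [dp, fderiv_fun_add (hf.diff hp) (hg.diff hp)]

lemma dp_sub (hf : FS c f) (hg : FS c g) (hp : p ∈ dom c) (i : Dir c) :
    dp (fun p => f p - g p) i p = dp f i p - dp g i p := by
  simp [dp, fderiv_fun_sub (hf.diff hp) (hg.diff hp)]

lemma dp_mul (hf : FS c f) (hg : FS c g) (hp : p ∈ dom c) (i : Dir c) :
    dp (fun p => f p * g p) i p = dp f i p * g p + f p * dp g i p := by
  simp [dp, fderiv_fun_mul (hf.diff hp) (hg.diff hp)]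
  ring

lemma dp_sum {ι : Type} [Fintype ι] {F : ι → Pt c → ℝ} (h : ∀ j, FS c (F j)) (hp : p ∈ dom c)
    (i : Dir c) : dp (fun p => ∑ j, F j p) i p = ∑ j, dp (F j) i p := by
  simp [dp, fderiv_fun_sum fun j (_ : j ∈ univ) => (h j).diff hp]

lemma d1_add (hf : FS c f) (hg : FS c g) (hp : p ∈ dom c) :
    d1 (fun p => f p + g p) p = d1 f p + d1 g p := by
  simp [d1, fderiv_fun_add (hf.diff hp) (hg.diff hp)]

lemma d1_sub (hf : FS c f) (hg : FS c g) (hp : p ∈ dom c) :
    d1 (fun p => f p - g p) p = d1 f p - d1 g p := by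
  simp [d1, fderiv_fun_sub (hf.diff hp) (hg.diff hp)]

lemma d1_mul (hf : FS c f) (hg : FS c g) (hp : p ∈ dom c) :
    d1 (fun p => f p * g p) p = d1 f p * g p + f p * d1 g p := by
  simp [d1, fderiv_fun_mul (hf.diff hp) (hg.diff hp)]
  ring

lemma d1_sum {ι : Type} [Fintype ι] {F : ι → Pt c → ℝ} (h : ∀ j, FS c (F j)) (hp : p ∈ dom c) :
    d1 (fun p => ∑ j, F j p) p = ∑ j, d1 (F j) p := by
  simp [d1, fderiv_fun_sum fun j (_ : j ∈ univ) => (h j).diff hp]

lemma dp_time (i : Dir c) : dp (fun p : Pt c => p.1) i p = 0 := by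
  rw [dp, hasFDerivAt_fst.fderiv]
  simp

lemma d1_time : d1 (fun p : Pt c => p.1) p = 1 := by
  rw [d1, hasFDerivAt_fst.fderiv]
  simp

lemma dp_xi (k : Fin c.d) (i : Dir c) :
    dp (fun p : Pt c => p.2.1 k) i p = Sum.elim (fun l => if l = k then 1 else 0) (fun _ => 0) i := by
  let L : Pt c →L[ℝ] ℝ := (EuclideanSpace.proj k).comp
    ((ContinuousLinearMap.fst ℝ (EE c.d) (EE c.d)).comp (ContinuousLinearMap.snd ℝ ℝ _))
  show fderiv ℝ (fun p => L p) p (0, bz c i) = _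
  rw [L.fderiv]
  cases i <;> simp [L, bz, ev, PiLp.single_apply, eq_comm]

lemma dp_eta (k : Fin c.d) (i : Dir c) :
    dp (fun p : Pt c => p.2.2 k) i p = Sum.elim (fun _ => 0) (fun l => if l = k then 1 else 0) i := by
  let L : Pt c →L[ℝ] ℝ := (EuclideanSpace.proj k).comp
    ((ContinuousLinearMap.snd ℝ (EE c.d) (EE c.d)).comp (ContinuousLinearMap.snd ℝ ℝ _))
  show fderiv ℝ (fun p => L p) p (0, bz c i) = _
  rw [L.fderiv]
  cases i <;> simp [L, bz, ev, PiLp.single_apply, eq_comm]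

lemma d1_xi (k : Fin c.d) :
    d1 (fun p : Pt c => p.2.1 k) p = -c.D (scaleAt p.1) (posAt c p.1 p.2.1) k := by
  let L : Pt c →L[ℝ] ℝ := (EuclideanSpace.proj k).comp
    ((ContinuousLinearMap.fst ℝ (EE c.d) (EE c.d)).comp (ContinuousLinearMap.snd ℝ ℝ _))
  show fderiv ℝ (fun p => L p) p (1, vel1 c p) = _
  rw [L.fderiv]
  simp [L, vel1]

lemma d1_eta (k : Fin c.d) : d1 (fun p : Pt c => p.2.2 k) p = 0 := by
  let L : Pt c →L[ℝ] ℝ := (EuclideanSpace.proj k).comp
    ((ContinuousLinearMap.snd ℝ (EE c.d) (EE c.d)).comp (ContinuousLinearMap.snd ℝ ℝ _))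
  show fderiv ℝ (fun p => L p) p (1, vel1 c p) = _
  rw [L.fderiv]
  simp [L, vel1]

lemma sum_ev {d : ℕ} (x : EE d) : x = ∑ k, x k • ev k := by
  ext i
  simp [ev, Pi.single_apply, Finset.sum_apply]

lemma fderiv_upt {G : ℝ → EE c.d → ℝ} (hG : Sm G) (hp : p ∈ dom c) (a : ℝ) (b b' : EE c.d) :
    fderiv ℝ (fun p => G (scaleAt p.1) (posAt c p.1 p.2.1)) p (a, b, b') =
      -(2 * p.1 * a) * du G (scaleAt p.1) (posAt c p.1 p.2.1) +
        ∑ k, (a * p.2.1 k + p.1 * b k) * dx G k (scaleAt p.1) (posAt c p.1 p.2.1) := by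
  have hu := scaleAt_mem hp.1
  have hd : HasFDerivAt (upt c) (fderiv ℝ (upt c) p) p :=
    ((contDiff_upt c).differentiable (by norm_num) p).hasFDerivAt
  have h := (hG.diff hu (posAt c p.1 p.2.1)).hasFDerivAt.comp p hd
  have e : fderiv ℝ (upt c) p (a, b, b') = (-(2 * p.1 * a), a • p.2.1 + p.1 • b) := by
    have h1 : HasFDerivAt (fun q : Pt c => q.1) (ContinuousLinearMap.fst ℝ _ _) p :=
      hasFDerivAt_fst
    have h2 : HasFDerivAt (fun q : Pt c => q.2.1)
        ((ContinuousLinearMap.fst ℝ _ _).comp (ContinuousLinearMap.snd ℝ _ _)) p :=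
      (hasFDerivAt_fst (p := p.2)).comp p hasFDerivAt_snd
    have h3 := ((h1.pow 2).const_sub 1).prodMk ((h1.smul h2).const_add c.y)
    have h4 : HasFDerivAt (upt c) _ p := h3
    rw [h4.fderiv]
    simp only [ContinuousLinearMap.prod_apply, ContinuousLinearMap.add_apply,
      ContinuousLinearMap.neg_apply, ContinuousLinearMap.smulRight_apply,
      ContinuousLinearMap.smul_apply, ContinuousLinearMap.comp_apply,
      ContinuousLinearMap.coe_fst', ContinuousLinearMap.coe_snd', smul_eq_mul, Prod.mk.injEq]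
    exact ⟨by norm_num, add_comm _ _⟩
  erw [h.fderiv]
  show fderiv ℝ (fun q : ℝ × EE c.d => G q.1 q.2) (upt c p) (fderiv ℝ (upt c) p (a, b, b')) = _
  have e2 : ((-(2 * p.1 * a), a • p.2.1 + p.1 • b) : ℝ × EE c.d) =
      -(2 * p.1 * a) • (1, 0) + ∑ k, (a * p.2.1 k + p.1 * b k) • (0, ev k) := by
    refine Prod.ext (by simp [Prod.fst_sum]) ?_
    simp only [Prod.snd_add, Prod.snd_sum, Prod.smul_snd, smul_zero, zero_add]
    conv_lhs => rw [sum_ev (a • p.2.1 + p.1 • b)]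
    simp
  rw [e, e2, map_add, map_smul, map_sum, smul_eq_mul, upt, ← du_eq hG hu]
  congr 1
  refine sum_congr rfl fun k _ => ?_
  rw [map_smul, smul_eq_mul, ← dx_eq hG hu]

lemma dp_upt {G : ℝ → EE c.d → ℝ} (hG : Sm G) (hp : p ∈ dom c) (i : Dir c) :
    dp (fun p => G (scaleAt p.1) (posAt c p.1 p.2.1)) i p =
      Sum.elim (fun k => p.1 * dx G k (scaleAt p.1) (posAt c p.1 p.2.1)) (fun _ => 0) i := by
  cases i <;> simp [dp, bz, ev, fderiv_upt hG hp, PiLp.single_apply]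

lemma d1_upt {G : ℝ → EE c.d → ℝ} (hG : Sm G) (hp : p ∈ dom c) :
    d1 (fun p => G (scaleAt p.1) (posAt c p.1 p.2.1)) p =
      -(2 * p.1) * hs c.D G (scaleAt p.1) (posAt c p.1 p.2.1) +
        ∑ k, (cmp c (.inl k) p * dx G k (scaleAt p.1) (posAt c p.1 p.2.1) -
          p.1 * dx (dx G k) k (scaleAt p.1) (posAt c p.1 p.2.1)) := by
  rw [d1, vel1, fderiv_upt hG hp]
  simp only [hs, cmp, PiLp.neg_apply, mul_neg, sum_sub_distrib, add_mul, neg_mul, sum_add_distrib,
    one_mul, mul_one, sum_neg_distrib, mul_assoc, ← mul_sum]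
  ring

lemma dp_cmp (hp : p ∈ dom c) (i j : Dir c) : dp (cmp c j) i p =
    (if i = j then 1 else 0) + (match i, j with
      | .inl k, .inl l => p.1 * p.1 * Pm K c (scaleAt p.1) (posAt c p.1 p.2.1) k l
      | _, _ => 0) := by
  cases j with
  | inr l =>
    show dp (fun p : Pt c => p.2.2 l) i p = _
    rw [dp_eta]
    cases i <;> simp
  | inl l =>
    show dp (fun p : Pt c => p.2.1 l + p.1 * c.D (scaleAt p.1) (posAt c p.1 p.2.1) l) i p = _
    rw [dp_add (fs_xi l) (fs_time.mul (fs_upt (sm_comp_D c l))) hp,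
      dp_mul fs_time (fs_upt (sm_comp_D c l)) hp, dp_time, dp_upt (sm_comp_D c l) hp, dp_xi]
    cases i with
    | inl k => simp only [Sum.elim_inl, zero_mul, zero_add, Sum.inl.injEq, ← mul_assoc]; rfl
    | inr k => simp

lemma d1_cmp (hp : p ∈ dom c) (i : Dir c) : d1 (cmp c i) p =
    Sum.elim (fun k => ∑ l, (cmp c (.inl l) p * (p.1 * Pm K c (scaleAt p.1) (posAt c p.1 p.2.1) l k)
      - p.1 * p.1 * dx (dx (fun u x => c.D u x k) l) l (scaleAt p.1) (posAt c p.1 p.2.1)))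
      (fun _ => 0) i := by
  cases i with
  | inr k => exact d1_eta k
  | inl k =>
    show d1 (fun p : Pt c => p.2.1 k + p.1 * c.D (scaleAt p.1) (posAt c p.1 p.2.1) k) p = _
    rw [d1_add (fs_xi k) (fs_time.mul (fs_upt (sm_comp_D c k))) hp,
      d1_mul fs_time (fs_upt (sm_comp_D c k)) hp, d1_time, d1_xi, d1_upt (sm_comp_D c k) hp,
      hs_D c k (scaleAt_mem hp.1)]
    simp only [Sum.elim_inl, mul_zero, zero_add, one_mul, neg_add_cancel_left, mul_sum]
    refine sum_congr rfl fun l _ => ?_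
    simp only [Pm]
    rw [show pd c.D [l, k] = dx (fun u x => c.D u x k) l from rfl]
    ring

end Vale.Agent.P347.Zero.Calc
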