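import Vale.Agent.P347.Zero.Calc.Fld

/-!
Integration by parts for the weights `wgt` on fields of polynomial growth.
-/

open Finset MeasureTheory Filter
open scoped ContDiff Topology RealInnerProductSpace

namespace Vale.Agent.P347.Zero.Calc

set_option linter.unusedVariables false
set_option linter.unusedSectionVars false

variable {K : ℕ → ℝ} {c : Cx K} {f g : Pt c → ℝ} {r : ℝ}

/-- Polynomial growth in space at every time. -/
def PG (c : Cx K) (f : Pt c → ℝ) : Prop :=
  ∀ r ∈ times, ∃ (C : ℝ) (N : ℕ), ∀ z : EE c.d × EE c.d, |f (r, z)| ≤ C * (1 + ‖z‖) ^ N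

lemma PG.nn (hf : PG c f) (hr : r ∈ times) :
    ∃ (C : ℝ) (N : ℕ), 0 ≤ C ∧ ∀ z : EE c.d × EE c.d, |f (r, z)| ≤ C * (1 + ‖z‖) ^ N := by
  obtain ⟨C, N, h⟩ := hf r hr
  exact ⟨|C|, N, abs_nonneg _, fun z => (h z).trans (by gcongr; exact le_abs_self C)⟩

lemma PG.add (hf : PG c f) (hg : PG c g) : PG c fun p => f p + g p := by
  intro r hr
  obtain ⟨C, N, hC, h⟩ := hf.nn hr
  obtain ⟨D, M, hD, h'⟩ := hg.nn hr
  refine ⟨C + D, N + M, fun z => ?_⟩
  have h1 : (1 : ℝ) ≤ 1 + ‖z‖ := le_add_of_nonneg_right (norm_nonneg z)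
  calc |f (r, z) + g (r, z)| ≤ C * (1 + ‖z‖) ^ N + D * (1 + ‖z‖) ^ M :=
        (abs_add_le _ _).trans (add_le_add (h z) (h' z))
    _ ≤ C * (1 + ‖z‖) ^ (N + M) + D * (1 + ‖z‖) ^ (N + M) := by gcongr <;> omega
    _ = _ := by ring

lemma PG.mul (hf : PG c f) (hg : PG c g) : PG c fun p => f p * g p := by
  intro r hr
  obtain ⟨C, N, hC, h⟩ := hf.nn hr
  obtain ⟨D, M, hD, h'⟩ := hg.nn hr
  refine ⟨C * D, N + M, fun z => ?_⟩
  rw [abs_mul, pow_add]
  calc |f (r, z)| * |g (r, z)| ≤ C * (1 + ‖z‖) ^ N * (D * (1 + ‖z‖) ^ M) :=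
        mul_le_mul (h z) (h' z) (abs_nonneg _) (by positivity)
    _ = _ := by ring

lemma pg_const (a : ℝ) : PG c fun _ => a := fun r _ => ⟨|a|, 0, fun z => by simp⟩

lemma PG.neg (hf : PG c f) : PG c fun p => -f p := fun r hr => by
  obtain ⟨C, N, h⟩ := hf r hr
  exact ⟨C, N, fun z => by simpa using h z⟩

lemma PG.sub (hf : PG c f) (hg : PG c g) : PG c fun p => f p - g p := by
  simpa only [sub_eq_add_neg] using hf.add hg.neg

lemma pg_time : PG c fun p => p.1 := fun r _ => ⟨|r|, 0, fun z => by simp⟩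

lemma pg_sum {ι : Type} [Fintype ι] {F : ι → Pt c → ℝ} (h : ∀ i, PG c (F i)) :
    PG c fun p => ∑ i, F i p := by
  classical
  suffices ∀ s : Finset ι, PG c fun p => ∑ i ∈ s, F i p from this univ
  intro s
  induction s using Finset.induction_on with
  | empty => simpa using pg_const (c := c) 0
  | insert a s ha ih => simpa [ha] using (h a).add ih

lemma PG.congr (hf : PG c f) (h : ∀ q ∈ dom c, g q = f q) : PG c g := fun r hr => by
  obtain ⟨C, N, hb⟩ := hf r hr
  exact ⟨C, N, fun z => by rw [h (r, z) ⟨hr, trivial⟩]; exact hb z⟩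

lemma pg_bdd {b : ℝ} (h : ∀ r ∈ times, ∀ z, |f (r, z)| ≤ b) : PG c f :=
  fun r hr => ⟨b, 0, fun z => by simpa using h r hr z⟩

lemma pg_xi (k : Fin c.d) : PG c fun p => p.2.1 k := fun r _ => ⟨1, 1, fun z => by
  have h1 : |z.1 k| ≤ ‖z.1‖ := by
    simpa [Real.norm_eq_abs] using PiLp.norm_apply_le z.1 k
  have h2 := norm_fst_le z
  simp only [one_mul, pow_one]
  linarith⟩

lemma pg_eta (k : Fin c.d) : PG c fun p => p.2.2 k := fun r _ => ⟨1, 1, fun z => by
  have h1 : |z.2 k| ≤ ‖z.2‖ := by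
    simpa [Real.norm_eq_abs] using PiLp.norm_apply_le z.2 k
  have h2 := norm_snd_le z
  simp only [one_mul, pow_one]
  linarith⟩

lemma pg_D (k : Fin c.d) : PG c fun p => c.D (scaleAt p.1) (posAt c p.1 p.2.1) k := by
  intro r hr
  have hu := scaleAt_mem hr
  set u := scaleAt r
  set B := ∑ l : Fin c.d, |c.lam * K 2| with hB
  have hd : ∀ x, ‖fderiv ℝ (fun x => c.D u x k) x‖ ≤ B := fun x => by
    refine ContinuousLinearMap.opNorm_le_bound _ (by positivity) fun v => ?_
    conv_lhs => rw [sum_ev v, map_sum]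
    refine (norm_sum_le _ _).trans ?_
    rw [hB, sum_mul]
    refine sum_le_sum fun l _ => ?_
    rw [map_smul, norm_smul, Real.norm_eq_abs, Real.norm_eq_abs, mul_comm]
    refine mul_le_mul ?_ (by simpa [Real.norm_eq_abs] using PiLp.norm_apply_le v l)
      (abs_nonneg _) (abs_nonneg _)
    have h := mop_entry (c.bip 1 1 le_rfl le_rfl u hu x) (fun _ => l) (fun _ => k)
    simpa [List.ofFn_succ, pd] using h
  have hB0 : 0 ≤ B := sum_nonneg fun l _ => abs_nonneg _
  refine ⟨|c.D u c.y k| + B, 1, fun z => ?_⟩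
  have h := Convex.norm_image_sub_le_of_norm_fderiv_le (f := fun x => c.D u x k) (s := Set.univ)
    (fun x _ => (sm_comp_D c k).diff_x hu x) (fun x _ => hd x) convex_univ
    (Set.mem_univ c.y) (Set.mem_univ (posAt c r z.1))
  have h2 : ‖posAt c r z.1 - c.y‖ ≤ ‖z‖ := by
    rw [posAt, add_sub_cancel_left, norm_smul, Real.norm_eq_abs]
    calc |r| * ‖z.1‖ ≤ 1 * ‖z‖ := mul_le_mul (abs_le.2 ⟨by linarith [hr.1], by linarith [hr.2]⟩)
          (norm_fst_le z) (norm_nonneg _) zero_le_one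
      _ = ‖z‖ := one_mul _
  show |c.D u (posAt c r z.1) k| ≤ _
  rw [pow_one]
  calc |c.D u (posAt c r z.1) k| ≤ |c.D u c.y k| + |c.D u (posAt c r z.1) k - c.D u c.y k| := by
        linarith [abs_sub_abs_le_abs_sub (c.D u (posAt c r z.1) k) (c.D u c.y k)]
    _ ≤ |c.D u c.y k| + B * ‖z‖ := by
        gcongr
        exact (Real.norm_eq_abs _ ▸ h).trans (mul_le_mul_of_nonneg_left h2 hB0)
    _ ≤ _ := by nlinarith [mul_nonneg (abs_nonneg (c.D u c.y k)) (norm_nonneg z)]

lemma pg_cmp : ∀ i : Dir c, PG c (cmp c i)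
  | .inl k => (pg_xi k).add (pg_time.mul (pg_D k))
  | .inr k => pg_eta k

lemma continuous_slice (hf : FS c f) (hr : r ∈ times) : Continuous fun z => f (r, z) :=
  hf.continuousOn.comp_continuous (Continuous.prodMk_right r) fun z => ⟨hr, trivial⟩

lemma continuous_wgt (hr : r ∈ times) : Continuous (wgt c r) := by
  have hV : Continuous (c.V (scaleAt r)) := continuous_iff_continuousAt.2 fun x =>
    (c.grad _ (scaleAt_mem hr) x).continuousAt
  unfold wgt posAt
  fun_prop

lemma wgt_pos (r : ℝ) (z : EE c.d × EE c.d) : 0 < wgt c r z := Real.exp_pos _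

lemma exists_poly_exp (N : ℕ) :
    ∃ C, ∀ t : ℝ, 0 ≤ t → (1 + t) ^ N * Real.exp (-(t ^ 2) / 4) ≤ C := by
  refine ⟨Real.exp (1 + N + N ^ 2), fun t ht => ?_⟩
  have h1 : (1 + t) ^ N ≤ Real.exp (N * t) := by
    rw [Real.exp_nat_mul]
    exact pow_le_pow_left₀ (by positivity) (by linarith [Real.add_one_le_exp t]) N
  calc (1 + t) ^ N * Real.exp (-(t ^ 2) / 4) ≤ Real.exp (N * t) * Real.exp (-(t ^ 2) / 4) :=
        mul_le_mul_of_nonneg_right h1 (Real.exp_nonneg _)
    _ ≤ _ := by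
        rw [← Real.exp_add]
        exact Real.exp_le_exp.2 (by nlinarith [sq_nonneg ((N : ℝ) - t / 2), sq_nonneg (N : ℝ)])

lemma integrable_rexp_sq {d : ℕ} {b : ℝ} (hb : 0 < b) :
    Integrable fun x : EE d => Real.exp (-b * ‖x‖ ^ 2) := by
  by_contra h
  have h2 := GaussianFourier.integral_rexp_neg_mul_sq_norm (V := EE d) hb
  rw [integral_undef h] at h2
  have : (0 : ℝ) < (Real.pi / b) ^ ((Module.finrank ℝ (EE d) : ℝ) / 2) := by positivity
  linarith

lemma integrable_pg (hf : FS c f) (hg : PG c f) (hr : r ∈ times) :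
    Integrable fun z => f (r, z) * wgt c r z := by
  obtain ⟨C, N, hC, h⟩ := hg.nn hr
  obtain ⟨A, hA⟩ := c.lower _ (scaleAt_mem hr)
  obtain ⟨P, hP⟩ := exists_poly_exp N
  have hi : Integrable fun z : EE c.d × EE c.d =>
      C * P * P * Real.exp A * (Real.exp (-(1 / 4) * ‖z.1‖ ^ 2) * Real.exp (-(1 / 4) * ‖z.2‖ ^ 2)) :=
    ((integrable_rexp_sq (d := c.d) (by norm_num : (0 : ℝ) < 1 / 4)).mul_prod
      (integrable_rexp_sq (d := c.d) (by norm_num : (0 : ℝ) < 1 / 4))).const_mul _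
  refine hi.mono' ((continuous_slice hf hr).mul (continuous_wgt hr)).aestronglyMeasurable
    (Eventually.of_forall fun z => ?_)
  rw [Real.norm_eq_abs, abs_mul, abs_of_pos (wgt_pos r z)]
  set a := ‖z.1‖
  set b := ‖z.2‖
  have hz : 1 + ‖z‖ ≤ (1 + a) * (1 + b) := by
    have : ‖z‖ ≤ a + b := max_le (le_add_of_nonneg_right (norm_nonneg _))
      (le_add_of_nonneg_left (norm_nonneg _))
    nlinarith [mul_nonneg (norm_nonneg z.1) (norm_nonneg z.2)]
  have hw : wgt c r z ≤ Real.exp A *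
      ((Real.exp (-(a ^ 2) / 4) * Real.exp (-(1 / 4) * a ^ 2)) *
        (Real.exp (-(b ^ 2) / 4) * Real.exp (-(1 / 4) * b ^ 2))) := by
    simp only [wgt, ← Real.exp_add]
    exact Real.exp_le_exp.2 (by linarith [hA (posAt c r z.1)])
  calc |f (r, z)| * wgt c r z ≤ C * ((1 + a) * (1 + b)) ^ N * (Real.exp A *
      ((Real.exp (-(a ^ 2) / 4) * Real.exp (-(1 / 4) * a ^ 2)) *
        (Real.exp (-(b ^ 2) / 4) * Real.exp (-(1 / 4) * b ^ 2)))) := by
        refine mul_le_mul ((h z).trans ?_) hw (wgt_pos r z).le (by positivity)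
        exact mul_le_mul_of_nonneg_left (pow_le_pow_left₀ (by positivity) hz N) hC
    _ = C * ((1 + a) ^ N * Real.exp (-(a ^ 2) / 4)) * ((1 + b) ^ N * Real.exp (-(b ^ 2) / 4)) *
        Real.exp A * (Real.exp (-(1 / 4) * a ^ 2) * Real.exp (-(1 / 4) * b ^ 2)) := by rw [mul_pow]; ring
    _ ≤ _ := by
        have hP0 : 0 ≤ P := le_trans (by positivity) (hP 0 le_rfl)
        gcongr
        · exact hP a (norm_nonneg _)
        · exact hP b (norm_nonneg _)

lemma mass_pos (hr : r ∈ times) : 0 < mass c r := by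
  have hi : Integrable (wgt c r) := by
    simpa using integrable_pg (fs_const (c := c) 1) (pg_const 1) hr
  exact integral_pos_of_integrable_nonneg_nonzero (continuous_wgt hr) hi
    (fun z => (wgt_pos r z).le) (wgt_pos r 0).ne'

lemma hasFDerivAt_slice (hf : FS c f) (hr : r ∈ times) (z : EE c.d × EE c.d) :
    DifferentiableAt ℝ (fun z => f (r, z)) z ∧
      ∀ i, fderiv ℝ (fun z => f (r, z)) z (bz c i) = dp f i (r, z) := by
  have h := (hf.diff ⟨hr, trivial⟩).hasFDerivAt.comp z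
    ((hasFDerivAt_const r z).prodMk (hasFDerivAt_id z))
  refine ⟨h.differentiableAt, fun i => ?_⟩
  erw [h.fderiv]
  simp [dp]

lemma hasFDerivAt_wgt (hr : r ∈ times) (z : EE c.d × EE c.d) :
    DifferentiableAt ℝ (wgt c r) z ∧
      ∀ i, fderiv ℝ (wgt c r) z (bz c i) = -(cmp c i (r, z)) * wgt c r z := by
  have h1 : HasFDerivAt (fun z : EE c.d × EE c.d => z.1)
      (ContinuousLinearMap.fst ℝ _ _) z := hasFDerivAt_fst
  have h2 : HasFDerivAt (fun z : EE c.d × EE c.d => z.2)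
      (ContinuousLinearMap.snd ℝ _ _) z := hasFDerivAt_snd
  have hp : HasFDerivAt (fun z : EE c.d × EE c.d => posAt c r z.1)
      (r • ContinuousLinearMap.fst ℝ _ _) z := (h1.const_smul r).const_add c.y
  have hV := (c.grad _ (scaleAt_mem hr) (posAt c r z.1)).hasFDerivAt.comp z hp
  have hE : HasFDerivAt (wgt c r) _ z :=
    ((((h1.norm_sq).neg.mul_const (1 / 2 : ℝ)).sub ((h2.norm_sq).mul_const (1 / 2 : ℝ))).sub
      hV).exp.congr_of_eventuallyEq (Eventually.of_forall fun z => by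
        simp [wgt, Function.comp]; ring_nf)
  refine ⟨hE.differentiableAt, fun i => ?_⟩
  rw [hE.fderiv]
  cases i <;>
    simp [bz, cmp, wgt, ev, EuclideanSpace.inner_single_right] <;> ring_nf

theorem ibp (hf : FS c f) (hg : PG c f) (hd : ∀ i, PG c (dp f i)) (i : Dir c) (hr : r ∈ times) :
    ∫ z, (cmp c i (r, z) * f (r, z) - dp f i (r, z)) * wgt c r z = 0 := by
  have hs := fun z => hasFDerivAt_slice hf hr z
  have hw := fun z => hasFDerivAt_wgt (c := c) hr z
  have i1 : Integrable fun z => dp f i (r, z) * wgt c r z :=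
    integrable_pg (fs_dp hf i) (hd i) hr
  have i2 : Integrable fun z => cmp c i (r, z) * f (r, z) * wgt c r z :=
    integrable_pg ((fs_cmp i).mul hf) ((pg_cmp i).mul hg) hr
  have : (volume : Measure (EE c.d × EE c.d)).IsAddHaarMeasure :=
    Measure.prod.instIsAddHaarMeasure volume volume
  have h := integral_mul_fderiv_eq_neg_fderiv_mul_of_integrable (𝕜 := ℝ)
    (μ := (volume : Measure (EE c.d × EE c.d))) (f := fun z => f (r, z))
    (g := wgt c r) (v := bz c i) (by simpa only [(hs _).2] using i1)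
    (i2.neg.congr (Eventually.of_forall fun z => by
      show -(cmp c i (r, z) * f (r, z) * wgt c r z) = f (r, z) * fderiv ℝ (wgt c r) z (bz c i)
      rw [(hw z).2]
      ring))
    (integrable_pg hf hg hr) (fun z _ => (hs z).1) (fun z _ => (hw z).1)
  simp only [(hs _).2, (hw _).2] at h
  have h3 : ∫ z, (cmp c i (r, z) * f (r, z) - dp f i (r, z)) * wgt c r z =
      -(∫ z, f (r, z) * (-(cmp c i (r, z)) * wgt c r z)) - ∫ z, dp f i (r, z) * wgt c r z := by
    rw [← integral_neg, ← integral_sub _ i1]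
    · exact integral_congr_ae (Eventually.of_forall fun z => by ring)
    · exact i2.congr (Eventually.of_forall fun z => by ring)
  rw [h3, h]
  ring

end Vale.Agent.P347.Zero.Calc
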