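import Vale.Agent.P347.Zero.Calc.Basic

/-!
Operator norms of matrices with arbitrary finite index types: closure under composition, sums,
relabelling and tensoring with an identity.
-/

namespace Vale.Agent.P347.Zero.Calc

open Finset

set_option linter.unusedSectionVars false

variable {α β γ ι : Type} [Fintype α] [Fintype β] [Fintype γ]

/-- Product of matrices. -/
def mmul (a : α → β → ℝ) (b : β → γ → ℝ) : α → γ → ℝ := fun i k => ∑ j, a i j * b j k

open Classical in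
/-- Identity on a new index, tensored with a matrix. -/
noncomputable def mlift (a : α → β → ℝ) : ι × α → ι × β → ℝ :=
  fun p q => if p.1 = q.1 then a p.2 q.2 else 0

lemma mop_mono {a : α → β → ℝ} {C C' : ℝ} (h : Mop a C) (h0 : 0 ≤ C) (h' : C ≤ C') : Mop a C' :=
  fun v => (h v).trans (by gcongr)

lemma mop_zero (C : ℝ) : Mop (fun (_ : α) (_ : β) => (0 : ℝ)) C := fun v => by
  simpa using mul_nonneg (sq_nonneg C) (sum_nonneg fun j _ => sq_nonneg (v j))

lemma mmul_apply (a : α → β → ℝ) (b : β → γ → ℝ) (v : γ → ℝ) (i : α) :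
    ∑ k, mmul a b i k * v k = ∑ j, a i j * ∑ k, b j k * v k := by
  simp only [mmul, sum_mul, mul_sum]
  rw [sum_comm]
  exact sum_congr rfl fun j _ => sum_congr rfl fun k _ => by ring

lemma mop_mmul {a : α → β → ℝ} {b : β → γ → ℝ} {A B : ℝ} (ha : Mop a A) (hb : Mop b B) :
    Mop (mmul a b) (A * B) := by
  intro v
  simp only [mmul_apply]
  calc ∑ i, (∑ j, a i j * ∑ k, b j k * v k) ^ 2
      ≤ A ^ 2 * ∑ j, (∑ k, b j k * v k) ^ 2 := ha _
    _ ≤ A ^ 2 * (B ^ 2 * ∑ k, v k ^ 2) := by gcongr; exact hb v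
    _ = (A * B) ^ 2 * ∑ k, v k ^ 2 := by ring

lemma mop_add {a b : α → β → ℝ} {A B : ℝ} (hA : 0 ≤ A) (hB : 0 ≤ B) (ha : Mop a A)
    (hb : Mop b B) : Mop (fun i j => a i j + b i j) (A + B) := by
  intro v
  set x := fun i => ∑ j, a i j * v j
  set y := fun i => ∑ j, b i j * v j
  have hx : ∑ i, x i ^ 2 ≤ A ^ 2 * ∑ j, v j ^ 2 := ha v
  have hy : ∑ i, y i ^ 2 ≤ B ^ 2 * ∑ j, v j ^ 2 := hb v
  have hxy : ∀ i, ∑ j, (a i j + b i j) * v j = x i + y i := fun i => by
    simp only [x, y, add_mul, sum_add_distrib]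
  simp only [hxy]
  have hv : 0 ≤ ∑ j, v j ^ 2 := sum_nonneg fun j _ => sq_nonneg (v j)
  have hcs : |∑ i, x i * y i| ≤ A * B * ∑ j, v j ^ 2 := by
    refine abs_le_of_sq_le_sq ?_ (by positivity)
    refine (sum_mul_sq_le_sq_mul_sq _ x y).trans ?_
    calc (∑ i, x i ^ 2) * ∑ i, y i ^ 2
        ≤ (A ^ 2 * ∑ j, v j ^ 2) * (B ^ 2 * ∑ j, v j ^ 2) := by
          gcongr
      _ = (A * B * ∑ j, v j ^ 2) ^ 2 := by ring
  have hexp : ∑ i, (x i + y i) ^ 2 =
      (∑ i, x i ^ 2) + 2 * (∑ i, x i * y i) + ∑ i, y i ^ 2 := by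
    simp only [add_sq, sum_add_distrib, mul_sum, mul_assoc]
  rw [hexp]
  nlinarith [le_abs_self (∑ i, x i * y i)]

lemma mop_smul {a : α → β → ℝ} {A : ℝ} (c : ℝ) (ha : Mop a A) :
    Mop (fun i j => c * a i j) (|c| * A) := by
  intro v
  have h : ∀ i, ∑ j, c * a i j * v j = c * ∑ j, a i j * v j := fun i => by
    simp only [mul_sum, mul_assoc]
  simp only [h, mul_pow, ← mul_sum, sq_abs, mul_assoc]
  exact mul_le_mul_of_nonneg_left (ha v) (sq_nonneg c)

lemma mop_reindex {α' β' : Type} [Fintype α'] [Fintype β'] {a : α → β → ℝ} {A : ℝ}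
    (ea : α' ≃ α) (eb : β' ≃ β) (ha : Mop a A) : Mop (fun i j => a (ea i) (eb j)) A := by
  intro v
  have h := ha (v ∘ eb.symm)
  have e1 : ∀ i, ∑ j, a i j * (v ∘ eb.symm) j = ∑ j, a i (eb j) * v j := fun i =>
    (eb.sum_comp _).symm.trans (sum_congr rfl fun j _ => by simp)
  have e2 : ∑ j, (v ∘ eb.symm) j ^ 2 = ∑ j, v j ^ 2 :=
    (eb.sum_comp _).symm.trans (sum_congr rfl fun j _ => by simp)
  simp only [e1, e2] at h
  rw [← ea.sum_comp] at h
  exact h

lemma mop_mlift [Fintype ι] {a : α → β → ℝ} {A : ℝ} (ha : Mop a A) :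
    Mop (mlift (ι := ι) a) A := by
  intro v
  have e : ∀ p : ι × α, ∑ q, mlift a p q * v q = ∑ j, a p.2 j * v (p.1, j) := fun p => by
    rw [Fintype.sum_prod_type, sum_eq_single p.1]
    · simp [mlift]
    · intro c _ hc
      simp [mlift, Ne.symm hc]
    · simp
  simp only [e, Fintype.sum_prod_type, mul_sum (s := (univ : Finset ι))]
  exact sum_le_sum fun c _ => ha fun j => v (c, j)

/-- The identity matrix has norm one. -/
lemma mop_one [DecidableEq α] : Mop (fun i j : α => if i = j then (1 : ℝ) else 0) 1 := by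
  intro v
  simp

lemma mop_entry {a : α → β → ℝ} {A : ℝ} (ha : Mop a A) (i : α) (j : β) : |a i j| ≤ |A| := by
  classical
  have h := ha fun k => if k = j then (1 : ℝ) else 0
  simp at h
  rw [← sq_le_sq]
  exact (single_le_sum (f := fun k => a k j ^ 2) (fun k _ => sq_nonneg (a k j)) (mem_univ i)).trans h

end Vale.Agent.P347.Zero.Calc
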