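import Vale.Agent.P347.Zero.Calc.Ibp

/-!
Field families bounded in L² to every order of space derivatives (`FAll`) and of flow derivatives
(`FReg`), with their operations: selection of components, time, Hessian-type multipliers,
gradient and its adjoint.
-/

open Finset MeasureTheory Filter
open scoped ContDiff Topology

namespace Vale.Agent.P347.Zero.Calc

set_option linter.unusedVariables false
set_option linter.unusedSectionVars false

variable {K : ℕ → ℝ} {κ κ' α β : Cx K → Type}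

/-- A field for every datum. -/
abbrev XFld (κ : Cx K → Type) := ∀ c : Cx K, Pt c → κ c → ℝ

/-- All space derivatives. -/
noncomputable def grd (φ : XFld κ) : XFld (fun c => Dir c × κ c) :=
  fun c p ik => dp (fun q => φ c q ik.2) ik.1 p

/-- The adjoint of the gradient. -/
noncomputable def dlt (φ : XFld (fun c => Dir c × κ c)) : XFld κ :=
  fun c p k => ∑ i, (cmp c i p * φ c p (i, k) - dp (fun q => φ c q (i, k)) i p)

/-- Derivative along the plain flow. -/
noncomputable def fd1 (φ : XFld κ) : XFld κ := fun c p k => d1 (fun q => φ c q k) p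

/-- Sum. -/
def fadd (φ ψ : XFld κ) : XFld κ := fun c p k => φ c p k + ψ c p k

/-- Scalar multiple. -/
def fsmul (t : ℝ) (φ : XFld κ) : XFld κ := fun c p k => t * φ c p k

/-- Multiplication by time. -/
def ftime (φ : XFld κ) : XFld κ := fun c p k => p.1 * φ c p k

/-- Selection and padding of components. -/
def fpick (e : ∀ c, κ' c → Option (κ c)) (φ : XFld κ) : XFld κ' :=
  fun c p k => (e c k).elim 0 (φ c p)

/-- Every component is selected at most once. -/
def PickInj (e : ∀ c, κ' c → Option (κ c)) : Prop :=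
  ∀ c i j, ∀ k : κ c, e c i = some k → e c j = some k → i = j

/-- Multiplication by a matrix field in (scale, position). -/
noncomputable def fmul [∀ c, Fintype (β c)] (a : XOp α β) (φ : XFld β) : XFld α :=
  fun c p i => ∑ j, a c (scaleAt p.1) (posAt c p.1 p.2.1) i j * φ c p j

/-- Place the ξ components. -/
def toXi (κ : Cx K → Type) : ∀ c, Dir c × κ c → Option (Fin c.d × κ c) :=
  fun c ik => ik.1.elim (fun k => some (k, ik.2)) (fun _ => none)

/-- Place the η components. -/
def toEta (κ : Cx K → Type) : ∀ c, Dir c × κ c → Option (Fin c.d × κ c) :=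
  fun c ik => ik.1.elim (fun _ => none) (fun k => some (k, ik.2))

/-- Select the ξ components. -/
def ofXi (κ : Cx K → Type) : ∀ c, Fin c.d × κ c → Option (Dir c × κ c) :=
  fun c ik => some (.inl ik.1, ik.2)

/-- Select the η components. -/
def ofEta (κ : Cx K → Type) : ∀ c, Fin c.d × κ c → Option (Dir c × κ c) :=
  fun c ik => some (.inr ik.1, ik.2)

lemma pickInj_toXi : PickInj (toXi κ) := by
  intro c i j k hi hj
  obtain ⟨i1, i2⟩ := i
  obtain ⟨j1, j2⟩ := j
  cases i1 <;> cases j1 <;> simp_all [toXi] <;> grind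

lemma pickInj_toEta : PickInj (toEta κ) := by
  intro c i j k hi hj
  obtain ⟨i1, i2⟩ := i
  obtain ⟨j1, j2⟩ := j
  cases i1 <;> cases j1 <;> simp_all [toEta] <;> grind

lemma pickInj_ofXi : PickInj (ofXi κ) := by
  intro c i j k hi hj
  simp_all [ofXi]
  grind

lemma pickInj_ofEta : PickInj (ofEta κ) := by
  intro c i j k hi hj
  simp_all [ofEta]
  grind

lemma pickInj_equiv (e : ∀ c, κ' c ≃ κ c) : PickInj fun c i => some (e c i) := by
  intro c i j k hi hj
  simp only [Option.some.injEq] at hi hj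
  exact (e c).injective (hi.trans hj.symm)

variable [∀ c, Fintype (κ c)] [∀ c, Fintype (κ' c)] [∀ c, Fintype (α c)] [∀ c, Fintype (β c)]

/-- Smooth, of polynomial growth, bounded in L² by a multiple of √d. -/
def FBase (φ : XFld κ) : Prop :=
  (∀ c k, FS c fun p => φ c p k) ∧ (∀ c k, PG c fun p => φ c p k) ∧
    ∃ C, 0 ≤ C ∧ ∀ c : Cx K, ∀ r ∈ times, sqn c (φ c) r ≤ C * c.d * mass c r

/-- Bounded up to j space derivatives. -/
def FGood : ℕ → ∀ {κ : Cx K → Type} [∀ c, Fintype (κ c)], XFld κ → Prop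
  | 0 => fun φ => FBase φ
  | j + 1 => fun φ => FBase φ ∧ FGood j (grd φ)

/-- All space derivatives bounded. -/
def FAll (φ : XFld κ) : Prop := ∀ j, FGood j φ

/-- Stable under m derivatives along the plain flow. -/
def FReg : ℕ → ∀ {κ : Cx K → Type} [∀ c, Fintype (κ c)], XFld κ → Prop
  | 0 => fun φ => FAll φ
  | m + 1 => fun φ => FAll φ ∧ FReg m (fd1 φ)

lemma FGood.base {j : ℕ} {φ : XFld κ} (h : FGood j φ) : FBase φ := by
  cases j with
  | zero => exact h
  | succ j => exact h.1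

lemma FAll.base {φ : XFld κ} (h : FAll φ) : FBase φ := h 0

lemma FAll.grd {φ : XFld κ} (h : FAll φ) : FAll (grd φ) := fun j => (h (j + 1)).2

lemma FReg.all {m : ℕ} {φ : XFld κ} (h : FReg m φ) : FAll φ := by
  cases m with
  | zero => exact h
  | succ m => exact h.1

lemma FGood.down : ∀ (j : ℕ) {κ : Cx K → Type} [∀ c, Fintype (κ c)] {φ : XFld κ},
    FGood (j + 1) φ → FGood j φ
  | 0, _, _, _, h => h.1
  | j + 1, _, _, _, h => ⟨h.1, FGood.down j h.2⟩

lemma FReg.down : ∀ (m : ℕ) {κ : Cx K → Type} [∀ c, Fintype (κ c)] {φ : XFld κ},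
    FReg (m + 1) φ → FReg m φ
  | 0, _, _, _, h => h.1
  | m + 1, _, _, _, h => ⟨h.1, FReg.down m h.2⟩

lemma sqn_congr {c : Cx K} {α : Type} [Fintype α] {φ ψ : Pt c → α → ℝ} {r : ℝ}
    (h : ∀ z, φ (r, z) = ψ (r, z)) : sqn c φ r = sqn c ψ r := by simp only [sqn, h]

lemma FBase.congr {φ ψ : XFld κ} (h : FBase φ)
    (e : ∀ c : Cx K, ∀ p ∈ dom c, ψ c p = φ c p) : FBase ψ := by
  obtain ⟨hs, hp, C, hC, hb⟩ := h
  exact ⟨fun c k => (hs c k).congr fun p hp => congrFun (e c p hp) k,
    fun c k => (hp c k).congr fun p hp => congrFun (e c p hp) k,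
    C, hC, fun c r hr => by rw [sqn_congr fun z => e c (r, z) ⟨hr, trivial⟩]; exact hb c r hr⟩

lemma FGood.congr : ∀ (j : ℕ) {κ : Cx K → Type} [∀ c, Fintype (κ c)] {φ ψ : XFld κ},
    FGood j φ → (∀ c : Cx K, ∀ p ∈ dom c, ψ c p = φ c p) → FGood j ψ
  | 0, _, _, _, _, h, e => FBase.congr h e
  | j + 1, _, _, _, _, h, e => ⟨h.1.congr e, FGood.congr j h.2 fun c p hp => funext fun ik =>
      dp_congr hp (fun q hq => congrFun (e c q hq) ik.2) ik.1⟩

lemma FReg.congr : ∀ (m : ℕ) {κ : Cx K → Type} [∀ c, Fintype (κ c)] {φ ψ : XFld κ},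
    FReg m φ → (∀ c : Cx K, ∀ p ∈ dom c, ψ c p = φ c p) → FReg m ψ
  | 0, _, _, _, _, h, e => fun j => FGood.congr j (h j) e
  | m + 1, _, _, _, _, h, e => ⟨fun j => FGood.congr j (h.1 j) e,
      FReg.congr m h.2 fun c p hp => funext fun k =>
        d1_congr hp fun q hq => congrFun (e c q hq) k⟩

lemma integrable_sq {φ : XFld κ} (hs : ∀ c k, FS c fun p => φ c p k)
    (hp : ∀ c k, PG c fun p => φ c p k) (c : Cx K) {r : ℝ} (hr : r ∈ times) :
    Integrable fun z => (∑ k, φ c (r, z) k ^ 2) * wgt c r z := by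
  simpa only [pow_two] using integrable_pg (f := fun p => ∑ k, φ c p k * φ c p k)
    (fs_sum fun k => (hs c k).mul (hs c k)) (pg_sum fun k => (hp c k).mul (hp c k)) hr

lemma sqn_mono {φ : XFld κ} {ψ : XFld κ'} (hψs : ∀ c k, FS c fun p => ψ c p k)
    (hψp : ∀ c k, PG c fun p => ψ c p k) {T : ℝ} (c : Cx K) {r : ℝ} (hr : r ∈ times)
    (h : ∀ z, ∑ k, φ c (r, z) k ^ 2 ≤ T * ∑ k, ψ c (r, z) k ^ 2) :
    sqn c (φ c) r ≤ T * sqn c (ψ c) r := by
  rw [sqn, sqn, ← integral_const_mul]
  refine integral_mono_of_nonneg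
    (Eventually.of_forall fun z => mul_nonneg (sum_nonneg fun k _ => sq_nonneg _) (wgt_pos r z).le)
    ((integrable_sq hψs hψp c hr).const_mul T) (Eventually.of_forall fun z => ?_)
  calc (∑ k, φ c (r, z) k ^ 2) * wgt c r z ≤ (T * ∑ k, ψ c (r, z) k ^ 2) * wgt c r z :=
        mul_le_mul_of_nonneg_right (h z) (wgt_pos r z).le
    _ = _ := by ring

lemma fbase_add {φ ψ : XFld κ} (hφ : FBase φ) (hψ : FBase ψ) : FBase (fadd φ ψ) := by
  obtain ⟨s1, p1, A, hA, b1⟩ := hφ
  obtain ⟨s2, p2, B, hB, b2⟩ := hψ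
  refine ⟨fun c k => (s1 c k).add (s2 c k), fun c k => (p1 c k).add (p2 c k), 2 * (A + B),
    by positivity, fun c r hr => ?_⟩
  have i1 := integrable_sq s1 p1 c hr
  have i2 := integrable_sq s2 p2 c hr
  have hsum : sqn c (fadd φ ψ c) r ≤ 2 * (sqn c (φ c) r + sqn c (ψ c) r) := by
    rw [sqn, sqn, sqn, ← integral_add i1 i2, ← integral_const_mul]
    refine integral_mono_of_nonneg
      (Eventually.of_forall fun z => mul_nonneg (sum_nonneg fun k _ => sq_nonneg _) (wgt_pos r z).le)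
      ((i1.add i2).const_mul 2) (Eventually.of_forall fun z => ?_)
    show _ ≤ 2 * ((∑ k, φ c (r, z) k ^ 2) * wgt c r z + (∑ k, ψ c (r, z) k ^ 2) * wgt c r z)
    rw [← add_mul, ← sum_add_distrib, ← mul_assoc, mul_sum]
    exact mul_le_mul_of_nonneg_right (sum_le_sum fun k _ => add_sq_le) (wgt_pos r z).le
  linarith [b1 c r hr, b2 c r hr]

lemma fbase_smul {φ : XFld κ} (t : ℝ) (hφ : FBase φ) : FBase (fsmul t φ) := by
  obtain ⟨s, g, A, hA, b⟩ := hφ
  refine ⟨fun c k => (fs_const t).mul (s c k), fun c k => (pg_const t).mul (g c k), t ^ 2 * A,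
    by positivity, fun c r hr => ?_⟩
  refine (sqn_mono (ψ := φ) s g (T := t ^ 2) c hr fun z => ?_).trans ?_
  · simp [fsmul, mul_pow, mul_sum]
  · rw [mul_assoc, mul_assoc, ← mul_assoc A]
    exact mul_le_mul_of_nonneg_left (b c r hr) (sq_nonneg t)

lemma fbase_time {φ : XFld κ} (hφ : FBase φ) : FBase (ftime φ) := by
  obtain ⟨s, g, A, hA, b⟩ := hφ
  refine ⟨fun c k => fs_time.mul (s c k), fun c k => pg_time.mul (g c k), A, hA, fun c r hr => ?_⟩
  refine (sqn_mono (ψ := φ) s g (T := 1) c hr fun z => ?_).trans (by simpa using b c r hr)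
  simp only [ftime, mul_pow, ← mul_sum]
  refine mul_le_mul_of_nonneg_right ?_ (sum_nonneg fun k _ => sq_nonneg _)
  nlinarith [hr.1, hr.2]

lemma fs_pick {φ : XFld κ} (e : ∀ c, κ' c → Option (κ c)) (h : ∀ c k, FS c fun p => φ c p k)
    (c : Cx K) (k : κ' c) : FS c fun p => fpick e φ c p k := by
  cases he : e c k with
  | none => simpa [fpick, he] using fs_const (c := c) 0
  | some j => simpa [fpick, he] using h c j

lemma fbase_pick {φ : XFld κ} {e : ∀ c, κ' c → Option (κ c)} (he : PickInj e) (hφ : FBase φ) :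
    FBase (fpick e φ) := by
  classical
  obtain ⟨s, g, A, hA, b⟩ := hφ
  refine ⟨fs_pick e s, fun c k => ?_, A, hA, fun c r hr => ?_⟩
  · cases h : e c k with
    | none => simpa [fpick, h] using pg_const (c := c) 0
    | some j => simpa [fpick, h] using g c j
  refine (sqn_mono (ψ := φ) s g (T := 1) c hr fun z => ?_).trans (by simpa using b c r hr)
  have e1 : ∀ i, fpick e φ c (r, z) i ^ 2 =
      ∑ k, if e c i = some k then φ c (r, z) k ^ 2 else 0 := fun i => by
    cases h : e c i with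
    | none => simp [fpick, h]
    | some j => simp [fpick, h]
  simp only [e1, one_mul]
  rw [sum_comm]
  refine sum_le_sum fun k _ => ?_
  rw [← sum_filter, sum_const, nsmul_eq_mul]
  refine mul_le_of_le_one_left (sq_nonneg _) ?_
  have : (univ.filter fun i => e c i = some k).card ≤ 1 :=
    card_le_one.2 fun i hi j hj => he c i j k (by simpa using hi) (by simpa using hj)
  exact_mod_cast this

lemma fbase_mul {a : XOp α β} {φ : XFld β} (ha : XBase a) (hφ : FBase φ) : FBase (fmul a φ) := by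
  obtain ⟨sa, M, hM, ba⟩ := ha
  obtain ⟨s, g, A, hA, b⟩ := hφ
  refine ⟨fun c i => fs_sum fun j => (fs_upt (sa c i j)).mul (s c j), fun c i => pg_sum fun j =>
    ((pg_bdd (b := |M|) fun r hr z => mop_entry (ba c _ (scaleAt_mem hr) _) i j).mul (g c j)),
    M ^ 2 * A, by positivity, fun c r hr => ?_⟩
  refine (sqn_mono (ψ := φ) s g (T := M ^ 2) c hr fun z =>
    ba c _ (scaleAt_mem hr) (posAt c r z.1) _).trans ?_
  rw [mul_assoc, mul_assoc, ← mul_assoc A]
  exact mul_le_mul_of_nonneg_left (b c r hr) (sq_nonneg M)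

lemma fgood_add : ∀ (j : ℕ) {κ : Cx K → Type} [∀ c, Fintype (κ c)] {φ ψ : XFld κ},
    FGood j φ → FGood j ψ → FGood j (fadd φ ψ)
  | 0, _, _, _, _, h, h' => fbase_add h h'
  | j + 1, _, _, _, _, h, h' => ⟨fbase_add h.1 h'.1,
      FGood.congr j (fgood_add j h.2 h'.2) fun c p hp => funext fun ik =>
        dp_add (h.1.1 c _) (h'.1.1 c _) hp _⟩

lemma fgood_smul : ∀ (j : ℕ) {κ : Cx K → Type} [∀ c, Fintype (κ c)] {φ : XFld κ} (t : ℝ),
    FGood j φ → FGood j (fsmul t φ)
  | 0, _, _, _, t, h => fbase_smul t h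
  | j + 1, _, _, _, t, h => ⟨fbase_smul t h.1,
      FGood.congr j (fgood_smul j t h.2) fun c p hp => funext fun ik => by
        refine (dp_mul (fs_const t) (h.1.1 c _) hp _).trans ?_
        simp [dp_const, fsmul, grd]⟩

lemma fgood_time : ∀ (j : ℕ) {κ : Cx K → Type} [∀ c, Fintype (κ c)] {φ : XFld κ},
    FGood j φ → FGood j (ftime φ)
  | 0, _, _, _, h => fbase_time h
  | j + 1, _, _, _, h => ⟨fbase_time h.1,
      FGood.congr j (fgood_time j h.2) fun c p hp => funext fun ik => by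
        refine (dp_mul fs_time (h.1.1 c _) hp _).trans ?_
        simp [dp_time, ftime, grd]⟩

lemma fgood_pick : ∀ (j : ℕ) {κ κ' : Cx K → Type} [∀ c, Fintype (κ c)] [∀ c, Fintype (κ' c)]
    {φ : XFld κ} {e : ∀ c, κ' c → Option (κ c)}, PickInj e → FGood j φ → FGood j (fpick e φ)
  | 0, _, _, _, _, _, _, he, h => fbase_pick he h
  | j + 1, κ, κ', _, _, φ, e, he, h => ⟨fbase_pick he h.1,
      FGood.congr j (fgood_pick j (κ := fun c => Dir c × κ c)
        (κ' := fun c => Dir c × κ' c)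
        (e := fun c ik => (e c ik.2).map fun k => (ik.1, k))
        (by
          rintro c ⟨i, i2⟩ ⟨i', i2'⟩ ⟨k1, k2⟩ h1 h2
          simp only [Option.map_eq_some_iff, Prod.mk.injEq] at h1 h2
          obtain ⟨a, ha, rfl, rfl⟩ := h1
          obtain ⟨b, hb, h3, rfl⟩ := h2
          rw [h3, he c i2 i2' _ ha hb]) h.2)
        fun c p hp => funext fun ik => by
          cases he' : e c ik.2 with
          | none => simp [grd, fpick, he', dp_const]
          | some k => simp [grd, fpick, he']⟩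

open Classical in
lemma grd_fmul {a : XOp α β} {φ : XFld β} (ha : XBase a) (hs : ∀ c k, FS c fun p => φ c p k)
    (c : Cx K) (p : Pt c) (hp : p ∈ dom c) : grd (fmul a φ) c p =
      fadd (fpick (toXi α) (ftime (fmul (xout a) φ)))
        (fmul (xlift (ι := fun c => Dir c) a) (grd φ)) c p := by
  funext ik
  obtain ⟨i, k⟩ := ik
  show dp (fun q => ∑ j, a c (scaleAt q.1) (posAt c q.1 q.2.1) k j * φ c q j) i p = _
  rw [dp_sum (fun j => (fs_upt (ha.1 c k j)).mul (hs c j)) hp]
  simp only [dp_mul (fs_upt (ha.1 c k _)) (hs c _) hp, dp_upt (ha.1 c k _) hp, sum_add_distrib]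
  simp only [fadd, fpick, fmul, grd, xlift, Fintype.sum_prod_type (α₁ := Dir c)]
  congr 1
  · cases i <;> simp [toXi, ftime, fmul, xout, mul_sum, mul_assoc]
  · rw [sum_eq_single i]
    · simp [mlift]
    · intro b _ hb
      simp [mlift, Ne.symm hb]
    · simp

lemma fgood_mul : ∀ (j : ℕ) {α β : Cx K → Type} [∀ c, Fintype (α c)] [∀ c, Fintype (β c)]
    {a : XOp α β} {φ : XFld β}, XGood j a → FGood j φ → FGood j (fmul a φ)
  | 0, _, _, _, _, _, _, ha, h => fbase_mul ha h
  | j + 1, _, _, _, _, a, φ, ha, h => ⟨fbase_mul ha.1 h.1,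
      FGood.congr j (fgood_add j
        (fgood_pick j pickInj_toXi (fgood_time j (fgood_mul j ha.2.1 (FGood.down j h))))
        (fgood_mul j (xgood_lift j (XGood.down j ha)) h.2))
        fun c p hp => grd_fmul ha.1 h.1.1 c p hp⟩

end Vale.Agent.P347.Zero.Calc
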