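import Vale.Agent.P347.Zero.Calc.Mat

/-!
Scalar functions of (scale, position): partial derivatives and the heat operator
`∂_u - Δ / 2 + D·∇` attached to the field D.
-/

open Finset Filter
open scoped Topology ContDiff

namespace Vale.Agent.P347.Zero.Calc

variable {d : ℕ}

/-- Smoothness on the scales. -/
def Sm (g : ℝ → EE d → ℝ) : Prop :=
  ContDiffOn ℝ ∞ (fun p : ℝ × EE d => g p.1 p.2) (scales ×ˢ Set.univ)

/-- A partial derivative in space. -/
noncomputable def dx (g : ℝ → EE d → ℝ) (k : Fin d) (u : ℝ) (x : EE d) : ℝ :=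
  fderiv ℝ (g u) x (ev k)

/-- The derivative in the scale. -/
noncomputable def du (g : ℝ → EE d → ℝ) (u : ℝ) (x : EE d) : ℝ := deriv (fun t => g t x) u

/-- The heat operator of D. -/
noncomputable def hs (D : ℝ → EE d → EE d) (g : ℝ → EE d → ℝ) (u : ℝ) (x : EE d) : ℝ :=
  du g u x - 1 / 2 * (∑ k, dx (dx g k) k u x) + ∑ k, D u x k * dx g k u x

lemma isOpen_dom : IsOpen (scales ×ˢ (Set.univ : Set (EE d))) := isOpen_Ioo.prod isOpen_univ

lemma mem_dom {u : ℝ} (hu : u ∈ scales) (x : EE d) :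
    scales ×ˢ (Set.univ : Set (EE d)) ∈ 𝓝 (u, x) :=
  isOpen_dom.mem_nhds ⟨hu, trivial⟩

variable {f g : ℝ → EE d → ℝ} {u : ℝ}

lemma Sm.at' (hg : Sm g) (hu : u ∈ scales) (x : EE d) :
    ContDiffAt ℝ ∞ (fun p : ℝ × EE d => g p.1 p.2) (u, x) :=
  hg.contDiffAt (mem_dom hu x)

lemma Sm.diff (hg : Sm g) (hu : u ∈ scales) (x : EE d) :
    DifferentiableAt ℝ (fun p : ℝ × EE d => g p.1 p.2) (u, x) :=
  (hg.at' hu x).differentiableAt (by norm_num)

lemma Sm.diff_x (hg : Sm g) (hu : u ∈ scales) (x : EE d) : DifferentiableAt ℝ (g u) x :=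
  (hg.diff hu x).comp x ((differentiableAt_const u).prodMk differentiableAt_id)

lemma Sm.diff_u (hg : Sm g) (hu : u ∈ scales) (x : EE d) :
    DifferentiableAt ℝ (fun t => g t x) u :=
  DifferentiableAt.fun_comp' (f := fun t : ℝ => (t, x)) (g := fun p : ℝ × EE d => g p.1 p.2) u
    (hg.diff hu x) (differentiableAt_id.prodMk (differentiableAt_const x))

lemma dx_eq (hg : Sm g) (hu : u ∈ scales) (x : EE d) (k : Fin d) :
    dx g k u x = fderiv ℝ (fun p : ℝ × EE d => g p.1 p.2) (u, x) (0, ev k) := by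
  have h := (hg.diff hu x).hasFDerivAt.comp x
    ((hasFDerivAt_const u x).prodMk (hasFDerivAt_id x))
  show fderiv ℝ (g u) x (ev k) = _
  erw [h.fderiv]
  simp

lemma du_eq (hg : Sm g) (hu : u ∈ scales) (x : EE d) :
    du g u x = fderiv ℝ (fun p : ℝ × EE d => g p.1 p.2) (u, x) (1, 0) := by
  have h := (hg.diff hu x).hasFDerivAt.comp_hasDerivAt u
    ((hasDerivAt_id u).prodMk (hasDerivAt_const u x))
  show deriv (fun t => g t x) u = _
  simpa [Function.comp_def] using h.deriv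

lemma sm_dir (hg : Sm g) (v : ℝ × EE d) :
    Sm (fun u x => fderiv ℝ (fun p : ℝ × EE d => g p.1 p.2) (u, x) v) :=
  (hg.fderiv_of_isOpen isOpen_dom le_rfl).clm_apply contDiffOn_const

lemma sm_dx (hg : Sm g) (k : Fin d) : Sm (dx g k) :=
  (sm_dir hg (0, ev k)).congr fun p hp => dx_eq hg hp.1 p.2 k

lemma sm_du (hg : Sm g) : Sm (du g) :=
  (sm_dir hg (1, 0)).congr fun p hp => du_eq hg hp.1 p.2

lemma sm_const (a : ℝ) : Sm (fun (_ : ℝ) (_ : EE d) => a) := contDiffOn_const

lemma Sm.add (hf : Sm f) (hg : Sm g) : Sm (fun u x => f u x + g u x) := ContDiffOn.add hf hg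

lemma Sm.sub (hf : Sm f) (hg : Sm g) : Sm (fun u x => f u x - g u x) := ContDiffOn.sub hf hg

lemma Sm.mul (hf : Sm f) (hg : Sm g) : Sm (fun u x => f u x * g u x) := ContDiffOn.mul hf hg

lemma sm_sum {ι : Type} [Fintype ι] {F : ι → ℝ → EE d → ℝ} (h : ∀ i, Sm (F i)) :
    Sm (fun u x => ∑ i, F i u x) :=
  ContDiffOn.sum fun i _ => h i

lemma dx_const (a : ℝ) (k : Fin d) (u : ℝ) (x : EE d) : dx (fun _ _ => a) k u x = 0 := by
  simp [dx]

lemma du_const (a : ℝ) (u : ℝ) (x : EE d) : du (fun _ _ => a) u x = 0 := by simp [du]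

lemma dx_add (hf : Sm f) (hg : Sm g) (hu : u ∈ scales) (x : EE d) (k : Fin d) :
    dx (fun u x => f u x + g u x) k u x = dx f k u x + dx g k u x := by
  simp [dx, fderiv_fun_add (hf.diff_x hu x) (hg.diff_x hu x)]

lemma dx_mul (hf : Sm f) (hg : Sm g) (hu : u ∈ scales) (x : EE d) (k : Fin d) :
    dx (fun u x => f u x * g u x) k u x = dx f k u x * g u x + f u x * dx g k u x := by
  simp [dx, fderiv_fun_mul (hf.diff_x hu x) (hg.diff_x hu x)]
  ring

lemma dx_sum {ι : Type} [Fintype ι] {F : ι → ℝ → EE d → ℝ} (h : ∀ i, Sm (F i))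
    (hu : u ∈ scales) (x : EE d) (k : Fin d) :
    dx (fun u x => ∑ i, F i u x) k u x = ∑ i, dx (F i) k u x := by
  simp [dx, fderiv_fun_sum fun i (_ : i ∈ univ) => (h i).diff_x hu x]

lemma dx_congr {f g : ℝ → EE d → ℝ} (hu : u ∈ scales)
    (h : ∀ u ∈ scales, ∀ x, f u x = g u x) (x : EE d) (k : Fin d) : dx f k u x = dx g k u x := by
  rw [dx, dx, show f u = g u from funext fun x => h u hu x]

lemma du_congr {f g : ℝ → EE d → ℝ} (hu : u ∈ scales)
    (h : ∀ u ∈ scales, ∀ x, f u x = g u x) (x : EE d) : du f u x = du g u x := by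
  refine Filter.EventuallyEq.deriv_eq ?_
  filter_upwards [isOpen_Ioo.mem_nhds hu] with t ht
  exact h t ht x

lemma du_add (hf : Sm f) (hg : Sm g) (hu : u ∈ scales) (x : EE d) :
    du (fun u x => f u x + g u x) u x = du f u x + du g u x :=
  deriv_fun_add (hf.diff_u hu x) (hg.diff_u hu x)

lemma du_mul (hf : Sm f) (hg : Sm g) (hu : u ∈ scales) (x : EE d) :
    du (fun u x => f u x * g u x) u x = du f u x * g u x + f u x * du g u x :=
  deriv_fun_mul (hf.diff_u hu x) (hg.diff_u hu x)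

lemma du_sum {ι : Type} [Fintype ι] {F : ι → ℝ → EE d → ℝ} (h : ∀ i, Sm (F i))
    (hu : u ∈ scales) (x : EE d) :
    du (fun u x => ∑ i, F i u x) u x = ∑ i, du (F i) u x :=
  deriv_fun_sum fun i _ => (h i).diff_u hu x

lemma dir_comm (hg : Sm g) (hu : u ∈ scales) (x : EE d) (v w : ℝ × EE d) :
    fderiv ℝ (fun q : ℝ × EE d => fderiv ℝ (fun p : ℝ × EE d => g p.1 p.2) q v) (u, x) w =
      fderiv ℝ (fun q : ℝ × EE d => fderiv ℝ (fun p : ℝ × EE d => g p.1 p.2) q w) (u, x) v := by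
  have hd : DifferentiableAt ℝ (fderiv ℝ fun p : ℝ × EE d => g p.1 p.2) (u, x) :=
    ((hg.fderiv_of_isOpen isOpen_dom le_rfl).contDiffAt (mem_dom hu x) :
      ContDiffAt ℝ ∞ _ _).differentiableAt (by norm_num)
  have hs := (hg.at' hu x).isSymmSndFDerivAt
    (by simp only [minSmoothness_of_isRCLikeNormedField]; norm_cast)
  rw [fderiv_clm_apply hd (differentiableAt_const v),
    fderiv_clm_apply hd (differentiableAt_const w)]
  simpa using hs w v

lemma dx_dx (hg : Sm g) (hu : u ∈ scales) (x : EE d) (i k : Fin d) :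
    dx (dx g i) k u x = dx (dx g k) i u x := by
  rw [dx_congr hu (fun u hu x => dx_eq hg hu x i) x k,
    dx_congr hu (fun u hu x => dx_eq hg hu x k) x i, dx_eq (sm_dir hg _) hu x,
    dx_eq (sm_dir hg _) hu x]
  exact dir_comm hg hu x _ _

lemma du_dx (hg : Sm g) (hu : u ∈ scales) (x : EE d) (k : Fin d) :
    du (dx g k) u x = dx (du g) k u x := by
  rw [du_congr hu (fun u hu x => dx_eq hg hu x k) x,
    dx_congr hu (fun u hu x => du_eq hg hu x) x k, du_eq (sm_dir hg _) hu x,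
    dx_eq (sm_dir hg _) hu x]
  exact dir_comm hg hu x _ _

variable {D : ℝ → EE d → EE d}

lemma sm_hs (hD : ∀ k, Sm fun u x => D u x k) (hg : Sm g) : Sm (hs D g) :=
  ((sm_du hg).sub ((sm_const _).mul (sm_sum fun k => sm_dx (sm_dx hg k) k))).add
    (sm_sum fun k => (hD k).mul (sm_dx hg k))

lemma hs_const (a : ℝ) (hu : u ∈ scales) (x : EE d) :
    hs D (fun _ _ => a) u x = 0 := by
  have h : ∀ k, dx (dx (fun _ _ => a) k) k u x = 0 := fun k => by
    rw [dx_congr hu (fun u _ x => dx_const a k u x) x k, dx_const]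
  simp [hs, du_const, dx_const, h]

lemma hs_add (hf : Sm f) (hg : Sm g) (hu : u ∈ scales) (x : EE d) :
    hs D (fun u x => f u x + g u x) u x = hs D f u x + hs D g u x := by
  have h : ∀ k, dx (dx (fun u x => f u x + g u x) k) k u x =
      dx (dx f k) k u x + dx (dx g k) k u x := fun k => by
    rw [dx_congr hu (fun u hu x => dx_add hf hg hu x k) x k,
      dx_add (sm_dx hf k) (sm_dx hg k) hu x]
  simp only [hs, du_add hf hg hu x, h, dx_add hf hg hu x, mul_add, sum_add_distrib]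
  ring

lemma hs_mul (hf : Sm f) (hg : Sm g) (hu : u ∈ scales) (x : EE d) :
    hs D (fun u x => f u x * g u x) u x =
      hs D f u x * g u x + f u x * hs D g u x - ∑ k, dx f k u x * dx g k u x := by
  have h : ∀ k, dx (dx (fun u x => f u x * g u x) k) k u x =
      dx (dx f k) k u x * g u x + 2 * (dx f k u x * dx g k u x) +
        f u x * dx (dx g k) k u x := fun k => by
    rw [dx_congr hu (fun u hu x => dx_mul hf hg hu x k) x k,
      dx_add ((sm_dx hf k).mul hg) (hf.mul (sm_dx hg k)) hu x,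
      dx_mul (sm_dx hf k) hg hu x, dx_mul hf (sm_dx hg k) hu x]
    ring
  have h1 : ∀ k, D u x k * dx (fun u x => f u x * g u x) k u x =
      D u x k * dx f k u x * g u x + f u x * (D u x k * dx g k u x) := fun k => by
    rw [dx_mul hf hg hu x]
    ring
  simp only [hs, du_mul hf hg hu x, h, h1, sum_add_distrib, ← mul_sum, ← sum_mul]
  ring

lemma hs_sum {ι : Type} [Fintype ι] {F : ι → ℝ → EE d → ℝ} (h : ∀ i, Sm (F i))
    (hu : u ∈ scales) (x : EE d) :
    hs D (fun u x => ∑ i, F i u x) u x = ∑ i, hs D (F i) u x := by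
  have h2 : ∀ k, dx (dx (fun u x => ∑ i, F i u x) k) k u x = ∑ i, dx (dx (F i) k) k u x :=
    fun k => by
      rw [dx_congr hu (fun u hu x => dx_sum h hu x k) x k, dx_sum (fun i => sm_dx (h i) k) hu x]
  simp only [hs, du_sum h hu x, h2, dx_sum h hu x, sum_add_distrib, sum_sub_distrib, mul_sum]
  congr 1
  · congr 1
    exact sum_comm
  · exact sum_comm

lemma hs_dx (hD : ∀ k, Sm fun u x => D u x k) (hg : Sm g) (hu : u ∈ scales) (x : EE d)
    (k : Fin d) : hs D (dx g k) u x =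
      dx (hs D g) k u x - ∑ l, dx (fun u x => D u x l) k u x * dx g l u x := by
  have h : ∀ u ∈ scales, ∀ x, hs D g u x =
      (du g u x + (-(1 / 2)) * ∑ l, dx (dx g l) l u x) + ∑ l, D u x l * dx g l u x :=
    fun u _ x => by rw [hs]; ring
  have s1 : Sm (fun u x => ∑ l, dx (dx g l) l u x) := sm_sum fun l => sm_dx (sm_dx hg l) l
  have s2 : Sm (fun u x => ∑ l, D u x l * dx g l u x) :=
    sm_sum fun l => (hD l).mul (sm_dx hg l)
  have h3 : ∀ l, dx (dx (dx g k) l) l u x = dx (dx (dx g l) l) k u x := fun l => by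
    rw [dx_congr hu (fun u hu x => dx_dx hg hu x k l) x l, dx_dx (sm_dx hg l) hu x k l]
  rw [dx_congr hu h x k, dx_add ((sm_du hg).add ((sm_const _).mul s1)) s2 hu x,
    dx_add (sm_du hg) ((sm_const _).mul s1) hu x, dx_mul (sm_const _) s1 hu x, dx_const,
    dx_sum (fun l => sm_dx (sm_dx hg l) l) hu x,
    dx_sum (fun l => (hD l).mul (sm_dx hg l)) hu x]
  simp only [hs, du_dx hg hu x k, h3, dx_mul (hD _) (sm_dx hg _) hu x, sum_add_distrib,
    fun l => dx_dx hg hu x k l]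
  ring

end Vale.Agent.P347.Zero.Calc
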