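import Vale.Agent.P347.Zero.Calc.XOp

/-!
Closure of `XGood` and `XAll` under sums, scalar multiples, relabelling, lifts and products.
-/

open Finset
open scoped ContDiff

namespace Vale.Agent.P347.Zero.Calc

set_option linter.unusedVariables false
set_option linter.unusedSectionVars false

variable {K : ℕ → ℝ} {α β γ α' β' ι : Cx K → Type}
  [∀ c, Fintype (α c)] [∀ c, Fintype (β c)] [∀ c, Fintype (γ c)]
  [∀ c, Fintype (α' c)] [∀ c, Fintype (β' c)] [∀ c, Fintype (ι c)]

/-- Exchange of the first two indices of a triple. -/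
def swap12 (a b c : Type) : a × (b × c) ≃ b × (a × c) where
  toFun p := (p.2.1, p.1, p.2.2)
  invFun p := (p.2.1, p.1, p.2.2)
  left_inv _ := rfl
  right_inv _ := rfl

lemma xbase_add {a b : XOp α β} (ha : XBase a) (hb : XBase b) : XBase (xadd a b) := by
  obtain ⟨sa, A, hA, ha⟩ := ha
  obtain ⟨sb, B, hB, hb⟩ := hb
  exact ⟨fun c i j => (sa c i j).add (sb c i j), A + B, by positivity,
    fun c u hu x => mop_add hA hB (ha c u hu x) (hb c u hu x)⟩

lemma xgood_add : ∀ (j : ℕ) {α β : Cx K → Type} [∀ c, Fintype (α c)] [∀ c, Fintype (β c)]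
    {a b : XOp α β}, XGood j a → XGood j b → XGood j (xadd a b)
  | 0, _, _, _, _, _, _, ha, hb => xbase_add ha hb
  | j + 1, _, _, _, _, _, _, ha, hb =>
    ⟨xbase_add ha.1 hb.1,
      XGood.congr j (xgood_add j ha.2.1 hb.2.1) fun c u hu x => funext fun p => funext fun k =>
        dx_add (ha.1.1 c _ _) (hb.1.1 c _ _) hu x _,
      XGood.congr j (xgood_add j ha.2.2 hb.2.2) fun c u hu x => funext fun p => funext fun k =>
        dx_add (ha.1.1 c _ _) (hb.1.1 c _ _) hu x _⟩

lemma dx_smul {d : ℕ} {f : ℝ → EE d → ℝ} (t : ℝ) (hf : Sm f) {u : ℝ} (hu : u ∈ scales)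
    (x : EE d) (k : Fin d) : dx (fun u x => t * f u x) k u x = t * dx f k u x := by
  rw [dx_mul (sm_const t) hf hu x, dx_const]
  ring

lemma xbase_smul {a : XOp α β} (t : ℝ) (ha : XBase a) : XBase (xsmul t a) := by
  obtain ⟨sa, A, hA, ha⟩ := ha
  exact ⟨fun c i j => (sm_const t).mul (sa c i j), |t| * A, by positivity,
    fun c u hu x => mop_smul t (ha c u hu x)⟩

lemma xgood_smul : ∀ (j : ℕ) {α β : Cx K → Type} [∀ c, Fintype (α c)] [∀ c, Fintype (β c)]
    {a : XOp α β} (t : ℝ), XGood j a → XGood j (xsmul t a)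
  | 0, _, _, _, _, _, t, ha => xbase_smul t ha
  | j + 1, _, _, _, _, _, t, ha =>
    ⟨xbase_smul t ha.1,
      XGood.congr j (xgood_smul j t ha.2.1) fun c u hu x => funext fun p => funext fun k =>
        dx_smul t (ha.1.1 c _ _) hu x _,
      XGood.congr j (xgood_smul j t ha.2.2) fun c u hu x => funext fun p => funext fun k =>
        dx_smul t (ha.1.1 c _ _) hu x _⟩

lemma xgood_re : ∀ (j : ℕ) {α β α' β' : Cx K → Type} [∀ c, Fintype (α c)] [∀ c, Fintype (β c)]
    [∀ c, Fintype (α' c)] [∀ c, Fintype (β' c)]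
    {a : XOp α β} (ea : ∀ c, α' c ≃ α c) (eb : ∀ c, β' c ≃ β c),
    XGood j a → XGood j (xre ea eb a)
  | 0, _, _, _, _, _, _, _, _, a, ea, eb, ⟨sa, A, hA, ha⟩ =>
    ⟨fun c i k => sa c (ea c i) (eb c k), A, hA,
      fun c u hu x => mop_reindex (ea c) (eb c) (ha c u hu x)⟩
  | j + 1, _, _, _, _, _, _, _, _, a, ea, eb, ha =>
    ⟨xgood_re 0 (a := a) ea eb ha.1,
      xgood_re j (fun c => (Equiv.refl _).prodCongr (ea c)) eb ha.2.1,
      xgood_re j ea (fun c => (Equiv.refl _).prodCongr (eb c)) ha.2.2⟩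

open Classical in
lemma sm_mlift {c : Cx K} {a : XOp α β} (ha : ∀ i j, Sm fun u x => a c u x i j)
    (p : ι c × α c) (q : ι c × β c) : Sm fun u x => xlift (ι := ι) a c u x p q := by
  by_cases h : p.1 = q.1
  · simpa [xlift, mlift, h] using ha p.2 q.2
  · simpa [xlift, mlift, h] using sm_const (d := c.d) 0

open Classical in
lemma dx_mlift {c : Cx K} {a : XOp α β} (p : ι c × α c) (q : ι c × β c) (k : Fin c.d) (u : ℝ)
    (x : EE c.d) : dx (fun u x => xlift (ι := ι) a c u x p q) k u x =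
      if p.1 = q.1 then dx (fun u x => a c u x p.2 q.2) k u x else 0 := by
  by_cases h : p.1 = q.1
  · simp [xlift, mlift, h]
  · simp [xlift, mlift, h, dx]

open Classical in
lemma xgood_lift : ∀ (j : ℕ) {α β ι : Cx K → Type} [∀ c, Fintype (α c)] [∀ c, Fintype (β c)]
    [∀ c, Fintype (ι c)] {a : XOp α β}, XGood j a → XGood j (xlift (ι := ι) a)
  | 0, _, _, _, _, _, _, a, ⟨sa, A, hA, ha⟩ =>
    ⟨fun c p q => sm_mlift (sa c) p q, A, hA, fun c u hu x => mop_mlift (ha c u hu x)⟩
  | j + 1, α, β, ι, _, _, _, a, ha =>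
    ⟨xgood_lift 0 (a := a) ha.1,
      XGood.congr j (xgood_re j (fun c => swap12 (Fin c.d) (ι c) (α c)) (fun c => Equiv.refl _)
        (xgood_lift j (ι := ι) ha.2.1)) fun c u hu x => funext fun p => funext fun q => by
          refine (dx_mlift _ _ _ _ _).trans ?_
          by_cases h : p.2.1 = q.1 <;> simp [xout, xre, xlift, mlift, swap12, h],
      XGood.congr j (xgood_re j (fun c => Equiv.refl _) (fun c => swap12 (Fin c.d) (ι c) (β c))
        (xgood_lift j (ι := ι) ha.2.2)) fun c u hu x => funext fun p => funext fun q => by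
          refine (dx_mlift _ _ _ _ _).trans ?_
          by_cases h : p.1 = q.2.1 <;> simp [xin, xre, xlift, mlift, swap12, h]⟩

lemma xbase_mul {a : XOp α β} {b : XOp β γ} (ha : XBase a) (hb : XBase b) : XBase (xmul a b) := by
  obtain ⟨sa, A, hA, ha⟩ := ha
  obtain ⟨sb, B, hB, hb⟩ := hb
  exact ⟨fun c i k => sm_sum fun j => (sa c i j).mul (sb c j k), A * B, by positivity,
    fun c u hu x => mop_mmul (ha c u hu x) (hb c u hu x)⟩

open Classical in
lemma mmul_mlift_left {α β γ ι : Type} [Fintype α] [Fintype β] [Fintype γ] [Fintype ι]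
    (a : α → β → ℝ) (b : ι × β → γ → ℝ) (p : ι × α) (k : γ) :
    mmul (mlift a) b p k = ∑ j, a p.2 j * b (p.1, j) k := by
  rw [mmul, Fintype.sum_prod_type, sum_eq_single p.1]
  · simp [mlift]
  · intro c _ hc
    simp [mlift, Ne.symm hc]
  · simp

open Classical in
lemma mmul_mlift_right {α β γ ι : Type} [Fintype α] [Fintype β] [Fintype γ] [Fintype ι]
    (a : α → ι × β → ℝ) (b : β → γ → ℝ) (i : α) (q : ι × γ) :
    mmul a (mlift b) i q = ∑ j, a i (q.1, j) * b j q.2 := by
  rw [mmul, Fintype.sum_prod_type, sum_eq_single q.1]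
  · simp [mlift]
  · intro c _ hc
    simp [mlift, hc]
  · simp

lemma dx_xmul {a : XOp α β} {b : XOp β γ} {c : Cx K} (ha : XBase a) (hb : XBase b) {u : ℝ}
    (hu : u ∈ scales) (x : EE c.d) (i : α c) (k : γ c) (l : Fin c.d) :
    dx (fun u x => xmul a b c u x i k) l u x =
      (∑ j, dx (fun u x => a c u x i j) l u x * b c u x j k) +
        ∑ j, a c u x i j * dx (fun u x => b c u x j k) l u x := by
  simp only [xmul, mmul]
  rw [dx_sum (fun j => (ha.1 c i j).mul (hb.1 c j k)) hu x, ← sum_add_distrib]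
  exact sum_congr rfl fun j _ => dx_mul (ha.1 c i j) (hb.1 c j k) hu x l

lemma xout_mul {a : XOp α β} {b : XOp β γ} (ha : XBase a) (hb : XBase b) (c : Cx K) (u : ℝ)
    (hu : u ∈ scales) (x : EE c.d) : xout (xmul a b) c u x =
      xadd (xmul (xout a) b) (xmul (xlift (ι := fun c => Fin c.d) a) (xout b)) c u x := by
  funext p k
  simp only [xadd, xmul, xlift, mmul_mlift_left]
  exact dx_xmul ha hb hu x p.2 k p.1

lemma xin_mul {a : XOp α β} {b : XOp β γ} (ha : XBase a) (hb : XBase b) (c : Cx K) (u : ℝ)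
    (hu : u ∈ scales) (x : EE c.d) : xin (xmul a b) c u x =
      xadd (xmul (xin a) (xlift (ι := fun c => Fin c.d) b)) (xmul a (xin b)) c u x := by
  funext i q
  simp only [xadd, xmul, xlift, mmul_mlift_right]
  exact dx_xmul ha hb hu x i q.2 q.1

lemma xgood_mul : ∀ (j : ℕ) {α β γ : Cx K → Type} [∀ c, Fintype (α c)] [∀ c, Fintype (β c)]
    [∀ c, Fintype (γ c)] {a : XOp α β} {b : XOp β γ}, XGood j a → XGood j b → XGood j (xmul a b)
  | 0, _, _, _, _, _, _, _, _, ha, hb => xbase_mul ha hb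
  | j + 1, _, _, _, _, _, _, a, b, ha, hb =>
    ⟨xbase_mul ha.1 hb.1,
      XGood.congr j (xgood_add j (xgood_mul j ha.2.1 (XGood.down j hb))
        (xgood_mul j (xgood_lift j (XGood.down j ha)) hb.2.1))
        fun c u hu x => xout_mul ha.1 hb.1 c u hu x,
      XGood.congr j (xgood_add j (xgood_mul j ha.2.2 (xgood_lift j (XGood.down j hb)))
        (xgood_mul j (XGood.down j ha) hb.2.2))
        fun c u hu x => xin_mul ha.1 hb.1 c u hu x⟩

end Vale.Agent.P347.Zero.Calc
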