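import Vale.Agent.P347.Zero.Calc.Scalar

/-!
Matrix fields on (scale, position), uniformly over the data: `XAll` says that all iterated
derivatives have bounded operator norms in every bundling of the derivative indices, `XReg m`
that this survives m applications of the heat operator and of differentiation. Both classes are
closed under products, sums, lifts and relabelling.
-/

open Finset
open scoped ContDiff

set_option linter.unusedVariables false
set_option linter.unusedSectionVars false

namespace Vale.Agent.P347.Zero.Calc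

variable {K : ℕ → ℝ} {α β γ α' β' ι : Cx K → Type}

/-- A matrix field for every datum. -/
abbrev XOp (α β : Cx K → Type) := ∀ c : Cx K, ℝ → EE c.d → α c → β c → ℝ

/-- Derivative index joined to the rows. -/
noncomputable def xout (a : XOp α β) : XOp (fun c => Fin c.d × α c) β :=
  fun c u x p j => dx (fun u x => a c u x p.2 j) p.1 u x

/-- Derivative index joined to the columns. -/
noncomputable def xin (a : XOp α β) : XOp α (fun c => Fin c.d × β c) :=
  fun c u x i q => dx (fun u x => a c u x i q.2) q.1 u x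

/-- The heat operator, entrywise. -/
noncomputable def xhs (a : XOp α β) : XOp α β :=
  fun c u x i j => hs c.D (fun u x => a c u x i j) u x

/-- Product. -/
def xmul [∀ c, Fintype (β c)] (a : XOp α β) (b : XOp β γ) : XOp α γ :=
  fun c u x => mmul (a c u x) (b c u x)

/-- Sum. -/
def xadd (a b : XOp α β) : XOp α β := fun c u x i j => a c u x i j + b c u x i j

/-- Scalar multiple. -/
def xsmul (t : ℝ) (a : XOp α β) : XOp α β := fun c u x i j => t * a c u x i j

/-- Identity on a new index, tensored with a field. -/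
noncomputable def xlift (a : XOp α β) : XOp (fun c => ι c × α c) (fun c => ι c × β c) :=
  fun c u x => mlift (a c u x)

/-- Relabelling. -/
def xre (ea : ∀ c, α' c ≃ α c) (eb : ∀ c, β' c ≃ β c) (a : XOp α β) : XOp α' β' :=
  fun c u x i j => a c u x (ea c i) (eb c j)

variable [∀ c, Fintype (α c)] [∀ c, Fintype (β c)] [∀ c, Fintype (γ c)]
  [∀ c, Fintype (α' c)] [∀ c, Fintype (β' c)] [∀ c, Fintype (ι c)]

/-- Smooth with a uniform bound on the operator norm. -/
def XBase (a : XOp α β) : Prop :=
  (∀ c i j, Sm fun u x => a c u x i j) ∧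
    ∃ C, 0 ≤ C ∧ ∀ c : Cx K, ∀ u ∈ scales, ∀ x, Mop (a c u x) C

/-- Bounded up to j derivatives, in every bundling. -/
def XGood : ℕ → ∀ {α β : Cx K → Type} [∀ c, Fintype (α c)] [∀ c, Fintype (β c)], XOp α β → Prop
  | 0 => fun a => XBase a
  | j + 1 => fun a => XBase a ∧ XGood j (xout a) ∧ XGood j (xin a)

/-- All derivatives bounded. -/
def XAll (a : XOp α β) : Prop := ∀ j, XGood j a

/-- Stable under m heat operators and derivatives. -/
def XReg : ℕ → ∀ {α β : Cx K → Type} [∀ c, Fintype (α c)] [∀ c, Fintype (β c)], XOp α β → Prop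
  | 0 => fun a => XAll a
  | m + 1 => fun a => XAll a ∧ XReg m (xout a) ∧ XReg m (xin a) ∧ XReg m (xhs a)

lemma XGood.base {j : ℕ} {a : XOp α β} (h : XGood j a) : XBase a := by
  cases j with
  | zero => exact h
  | succ j => exact h.1

lemma XAll.base {a : XOp α β} (h : XAll a) : XBase a := h 0

lemma XAll.out {a : XOp α β} (h : XAll a) : XAll (xout a) := fun j => (h (j + 1)).2.1

lemma XAll.inn {a : XOp α β} (h : XAll a) : XAll (xin a) := fun j => (h (j + 1)).2.2

lemma XReg.all {m : ℕ} {a : XOp α β} (h : XReg m a) : XAll a := by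
  cases m with
  | zero => exact h
  | succ m => exact h.1

lemma XReg.sm {m : ℕ} {a : XOp α β} (h : XReg m a) (c : Cx K) (i : α c) (j : β c) :
    Sm fun u x => a c u x i j :=
  h.all.base.1 c i j

lemma XGood.congr : ∀ (j : ℕ) {α β : Cx K → Type} [∀ c, Fintype (α c)] [∀ c, Fintype (β c)]
    {a b : XOp α β}, XGood j a → (∀ c : Cx K, ∀ u ∈ scales, ∀ x, b c u x = a c u x) →
    XGood j b
  | 0, _, _, _, _, a, b, ⟨hs, C, hC, hb⟩, h =>
    ⟨fun c i k => (hs c i k).congr fun p hp => congrFun (congrFun (h c p.1 hp.1 p.2) i) k,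
      C, hC, fun c u hu x => by rw [h c u hu x]; exact hb c u hu x⟩
  | j + 1, _, _, _, _, a, b, hab, h =>
    ⟨XGood.congr 0 (a := a) hab.1 h,
      XGood.congr j hab.2.1 fun c u hu x => funext fun p => funext fun k =>
        dx_congr hu (fun u hu x => congrFun (congrFun (h c u hu x) _) _) x _,
      XGood.congr j hab.2.2 fun c u hu x => funext fun p => funext fun k =>
        dx_congr hu (fun u hu x => congrFun (congrFun (h c u hu x) _) _) x _⟩

lemma XGood.down : ∀ (j : ℕ) {α β : Cx K → Type} [∀ c, Fintype (α c)] [∀ c, Fintype (β c)]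
    {a : XOp α β}, XGood (j + 1) a → XGood j a
  | 0, _, _, _, _, _, h => h.1
  | j + 1, _, _, _, _, _, h => ⟨h.1, XGood.down j h.2.1, XGood.down j h.2.2⟩

lemma hs_congr {d : ℕ} {D : ℝ → EE d → EE d} {f g : ℝ → EE d → ℝ} {u : ℝ} (hu : u ∈ scales)
    (h : ∀ u ∈ scales, ∀ x, f u x = g u x) (x : EE d) : hs D f u x = hs D g u x := by
  simp only [hs, du_congr hu h x, dx_congr hu h x]
  congr 2
  congr 1
  exact sum_congr rfl fun k _ => dx_congr hu (fun u hu x => dx_congr hu h x k) x k

lemma XReg.congr : ∀ (m : ℕ) {α β : Cx K → Type} [∀ c, Fintype (α c)] [∀ c, Fintype (β c)]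
    {a b : XOp α β}, XReg m a → (∀ c : Cx K, ∀ u ∈ scales, ∀ x, b c u x = a c u x) →
    XReg m b
  | 0, _, _, _, _, _, _, hab, h => fun j => XGood.congr j (hab j) h
  | m + 1, _, _, _, _, _, _, hab, h =>
    ⟨fun j => XGood.congr j (hab.1 j) h,
      XReg.congr m hab.2.1 fun c u hu x => funext fun p => funext fun k =>
        dx_congr hu (fun u hu x => congrFun (congrFun (h c u hu x) _) _) x _,
      XReg.congr m hab.2.2.1 fun c u hu x => funext fun p => funext fun k =>
        dx_congr hu (fun u hu x => congrFun (congrFun (h c u hu x) _) _) x _,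
      XReg.congr m hab.2.2.2 fun c u hu x => funext fun p => funext fun k =>
        hs_congr hu (fun u hu x => congrFun (congrFun (h c u hu x) _) _) x⟩

lemma XReg.down : ∀ (m : ℕ) {α β : Cx K → Type} [∀ c, Fintype (α c)] [∀ c, Fintype (β c)]
    {a : XOp α β}, XReg (m + 1) a → XReg m a
  | 0, _, _, _, _, _, h => h.1
  | m + 1, _, _, _, _, _, h =>
    ⟨h.1, XReg.down m h.2.1, XReg.down m h.2.2.1, XReg.down m h.2.2.2⟩

end Vale.Agent.P347.Zero.Calc
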