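import Vale.Agent.P347.Zero.Calc.XClose

/-!
The Hessian field of D belongs to `XReg m` for every m, and `XReg m` is closed under sums,
scalar multiples, relabelling, lifts, products and differentiation.
-/

open Finset
open scoped ContDiff

namespace Vale.Agent.P347.Zero.Calc

set_option linter.unusedVariables false
set_option linter.unusedSectionVars false

variable {K : ℕ → ℝ} {α β γ α' β' ι : Cx K → Type}
  [∀ c, Fintype (α c)] [∀ c, Fintype (β c)] [∀ c, Fintype (γ c)]
  [∀ c, Fintype (α' c)] [∀ c, Fintype (β' c)] [∀ c, Fintype (ι c)]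

lemma sm_comp_D (c : Cx K) (k : Fin c.d) : Sm fun u x => c.D u x k :=
  (EuclideanSpace.proj k : EE c.d →L[ℝ] ℝ).contDiff.comp_contDiffOn c.smooth

lemma sm_pd (c : Cx K) : ∀ l : List (Fin c.d), Sm (pd c.D l)
  | [] => sm_const 0
  | [k] => sm_comp_D c k
  | i :: k :: l => sm_dx (sm_pd c (k :: l)) i

lemma pd_cons (c : Cx K) (k : Fin c.d) {l : List (Fin c.d)} (hl : l ≠ []) :
    pd c.D (k :: l) = dx (pd c.D l) k := by
  cases l with
  | nil => exact absurd rfl hl
  | cons i l => rfl

lemma pd_perm (c : Cx K) {l l' : List (Fin c.d)} (h : l.Perm l') :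
    ∀ u ∈ scales, ∀ x, pd c.D l u x = pd c.D l' u x := by
  induction h with
  | nil => exact fun u _ x => rfl
  | @cons k l1 l2 h12 ih =>
    intro u hu x
    by_cases h1 : l1 = []
    · subst h1
      rw [h12.nil_eq]
    · have h2 : l2 ≠ [] := fun he => h1 (by simpa [he] using h12)
      rw [pd_cons c k h1, pd_cons c k h2]
      exact dx_congr hu ih x k
  | swap i k l =>
    intro u hu x
    by_cases h1 : l = []
    · subst h1
      exact c.symm u hu x k i
    · rw [pd_cons c k (List.cons_ne_nil i l), pd_cons c i h1, pd_cons c i (List.cons_ne_nil k l),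
        pd_cons c k h1]
      exact dx_dx (sm_pd c l) hu x i k
  | trans _ _ ih1 ih2 => exact fun u hu x => (ih1 u hu x).trans (ih2 u hu x)

/-- The derivative tensor with its first a indices as rows and the last b as columns. -/
noncomputable def shape (K : ℕ → ℝ) (a b : ℕ) :
    XOp (K := K) (fun c => Fin a → Fin c.d) (fun c => Fin b → Fin c.d) :=
  fun c u x f g => pd c.D (List.ofFn f ++ List.ofFn g) u x

/-- The derivative tensor with a scalar factor depending on the datum. -/
noncomputable def wshape (w : Cx K → ℝ) (a b : ℕ) :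
    XOp (K := K) (fun c => Fin a → Fin c.d) (fun c => Fin b → Fin c.d) :=
  fun c u x f g => w c * shape K a b c u x f g

lemma xgood_wshape {w : Cx K → ℝ} {W : ℝ} (hW : ∀ c, |w c| * c.lam ≤ W) :
    ∀ (j a b : ℕ), 1 ≤ a → 1 ≤ b → XGood j (wshape w a b)
  | 0, a, b, ha, hb => by
    refine ⟨fun c f g => (sm_const (w c)).mul (sm_pd c _), |W| * |K (a + b)|, by positivity,
      fun c u hu x v => ?_⟩
    refine (mop_smul (w c) (c.bip a b ha hb u hu x) v).trans ?_
    gcongr ?_ * _
    rw [← sq_abs]
    gcongr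
    rw [abs_mul, abs_mul, abs_abs, abs_of_pos c.lam_pos, ← mul_assoc]
    gcongr
    exact (hW c).trans (le_abs_self W)
  | j + 1, a, b, ha, hb => by
    refine ⟨xgood_wshape hW 0 a b ha hb, ?_, ?_⟩
    · refine XGood.congr j (xgood_re j (fun c => Fin.consEquiv fun _ : Fin (a + 1) => Fin c.d)
        (fun c => Equiv.refl _) (xgood_wshape hW j (a + 1) b (by omega) hb)) ?_
      intro c u hu x
      funext p g
      have hne : List.ofFn p.2 ++ List.ofFn g ≠ [] := fun h => by
        have := congrArg List.length h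
        simp at this
        omega
      simp only [xout, xre, wshape, shape, Equiv.refl_apply]
      rw [show (Fin.consEquiv fun _ : Fin (a + 1) => Fin c.d) p = Fin.cons p.1 p.2 from rfl,
        List.ofFn_succ, dx_smul _ (sm_pd c _) hu x]
      simp [pd_cons c p.1 hne]
    · refine XGood.congr j (xgood_re j (fun c => Equiv.refl _)
        (fun c => Fin.consEquiv fun _ : Fin (b + 1) => Fin c.d)
        (xgood_wshape hW j a (b + 1) ha (by omega))) ?_
      intro c u hu x
      funext f q
      have hne : List.ofFn f ++ List.ofFn q.2 ≠ [] := fun h => by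
        have := congrArg List.length h
        simp at this
        omega
      simp only [xin, xre, wshape, shape, Equiv.refl_apply]
      rw [show (Fin.consEquiv fun _ : Fin (b + 1) => Fin c.d) q = Fin.cons q.1 q.2 from rfl,
        List.ofFn_succ, dx_smul _ (sm_pd c _) hu x]
      simp only [Fin.cons_zero, Fin.cons_succ]
      rw [pd_perm c List.perm_middle u hu x, pd_cons c q.1 hne]

/-- The Hessian field. -/
noncomputable def Pm (K : ℕ → ℝ) : XOp (K := K) (fun c => Fin c.d) (fun c => Fin c.d) :=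
  fun c u x k l => pd c.D [k, l] u x

/-- The Hessian field with a scalar factor depending on the datum. -/
noncomputable def wPm (w : Cx K → ℝ) : XOp (K := K) (fun c => Fin c.d) (fun c => Fin c.d) :=
  fun c u x k l => w c * Pm K c u x k l

lemma xall_wPm {w : Cx K → ℝ} {W : ℝ} (hW : ∀ c, |w c| * c.lam ≤ W) : XAll (wPm w) := fun j => by
  refine XGood.congr j (xgood_re j (fun c => (Equiv.funUnique (Fin 1) (Fin c.d)).symm)
    (fun c => (Equiv.funUnique (Fin 1) (Fin c.d)).symm) (xgood_wshape hW j 1 1 le_rfl le_rfl)) ?_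
  intro c u hu x
  funext k l
  simp [xre, wshape, wPm, shape, Pm, List.ofFn_succ]

lemma xall_Pm : XAll (Pm K) := fun j =>
  XGood.congr j (xall_wPm (w := fun _ => 1) (W := 1) (fun c => by simpa using c.lam_le) j)
    fun c u hu x => by funext k l; simp [wPm]

lemma hs_D (c : Cx K) (k : Fin c.d) {u : ℝ} (hu : u ∈ scales) (x : EE c.d) :
    hs c.D (fun u x => c.D u x k) u x = 0 := by
  show deriv (fun t => c.D t x k) u - 1 / 2 * (∑ i, pd c.D [i, i, k] u x) +
    ∑ i, c.D u x i * pd c.D [i, k] u x = 0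
  rw [c.heat u hu x k]
  ring

lemma hs_smul (c : Cx K) {f : ℝ → EE c.d → ℝ} (t : ℝ) (hf : Sm f) {u : ℝ} (hu : u ∈ scales)
    (x : EE c.d) : hs c.D (fun u x => t * f u x) u x = t * hs c.D f u x := by
  rw [hs_mul (sm_const t) hf hu x]
  simp [hs_const t hu, dx_const]

lemma xhs_Pm (c : Cx K) (u : ℝ) (hu : u ∈ scales) (x : EE c.d) :
    xhs (Pm K) c u x = xsmul (-1) (xmul (Pm K) (Pm K)) c u x := by
  funext k l
  have h := hs_dx (sm_comp_D c) (sm_comp_D c l) hu x k
  rw [dx_congr hu (fun u hu x => hs_D c l hu x) x k, dx_const, zero_sub] at h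
  show hs c.D (dx (fun u x => c.D u x l) k) u x = _
  rw [h]
  simp only [xsmul, xmul, mmul, Pm, neg_one_mul]
  rfl

/-- The Hessian acting on a derivative index joined to γ. -/
noncomputable def tens (γ : Cx K → Type) [∀ c, Fintype (γ c)] :
    XOp (fun c => Fin c.d × γ c) (fun c => Fin c.d × γ c) :=
  xre (fun c => Equiv.prodComm _ _) (fun c => Equiv.prodComm _ _) (xlift (ι := γ) (Pm K))

open Classical in
lemma xhs_lift (a : XOp α β) (c : Cx K) (u : ℝ) (hu : u ∈ scales) (x : EE c.d) :
    xhs (xlift (ι := ι) a) c u x = xlift (ι := ι) (xhs a) c u x := by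
  funext p q
  show hs c.D (fun u x => mlift (a c u x) p q) u x = _
  by_cases h : p.1 = q.1
  · simp [xhs, xlift, mlift, h]
  · simp [xlift, mlift, h, hs_const 0 hu]

lemma xhs_mul {a : XOp α β} {b : XOp β γ} (ha : XBase a) (hb : XBase b) (c : Cx K) (u : ℝ)
    (hu : u ∈ scales) (x : EE c.d) : xhs (xmul a b) c u x =
      xadd (xadd (xmul (xhs a) b) (xmul a (xhs b))) (xsmul (-1) (xmul (xin a) (xout b))) c u x := by
  funext i k
  simp only [xadd, xsmul, xmul, xhs, mmul, xin, xout]
  rw [hs_sum (fun j => (ha.1 c i j).mul (hb.1 c j k)) hu x]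
  simp only [Fintype.sum_prod_type]
  conv_rhs =>
    arg 2
    rw [Finset.sum_comm, neg_one_mul, ← sum_neg_distrib]
  rw [← sum_add_distrib, ← sum_add_distrib]
  exact sum_congr rfl fun j _ => by rw [hs_mul (ha.1 c i j) (hb.1 c j k) hu x]; ring

open Classical in
lemma xhs_out {a : XOp α β} (ha : XBase a) (c : Cx K) (u : ℝ) (hu : u ∈ scales) (x : EE c.d) :
    xhs (xout a) c u x =
      xadd (xout (xhs a)) (xsmul (-1) (xmul (tens α) (xout a))) c u x := by
  funext p j
  simp only [xadd, xsmul, xmul, tens, xre, xlift, mmul, xout, xhs, Fintype.sum_prod_type]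
  rw [hs_dx (sm_comp_D c) (ha.1 c p.2 j) hu x p.1]
  have e : ∀ l i, mlift (Pm K c u x) ((Equiv.prodComm _ _) p) ((Equiv.prodComm _ _) (l, i)) =
      if p.2 = i then Pm K c u x p.1 l else 0 := fun l i => by by_cases h : p.2 = i <;> simp [mlift, h]
  simp only [e, ite_mul, zero_mul, sum_ite_eq, mem_univ, if_true, neg_one_mul]
  rfl

open Classical in
lemma xhs_inn {a : XOp α β} (ha : XBase a) (c : Cx K) (u : ℝ) (hu : u ∈ scales) (x : EE c.d) :
    xhs (xin a) c u x =
      xadd (xin (xhs a)) (xsmul (-1) (xmul (xin a) (tens β))) c u x := by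
  funext i q
  simp only [xadd, xsmul, xmul, tens, xre, xlift, mmul, xin, xhs, Fintype.sum_prod_type]
  rw [hs_dx (sm_comp_D c) (ha.1 c i q.2) hu x q.1]
  have e : ∀ l j, mlift (Pm K c u x) ((Equiv.prodComm _ _) (l, j)) ((Equiv.prodComm _ _) q) =
      if j = q.2 then Pm K c u x l q.1 else 0 := fun l j => by by_cases h : j = q.2 <;> simp [mlift, h]
  simp only [e, mul_ite, mul_zero, sum_ite_eq', mem_univ, if_true, neg_one_mul,
    ← sub_eq_add_neg]
  congr 1
  refine sum_congr rfl fun l _ => ?_
  rw [mul_comm]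
  congr 1
  exact c.symm u hu x q.1 l

/-- The closure properties at level m. -/
structure XClosed (K : ℕ → ℝ) (m : ℕ) : Prop where
  add : ∀ {α β : Cx K → Type} [∀ c, Fintype (α c)] [∀ c, Fintype (β c)] {a b : XOp α β},
    XReg m a → XReg m b → XReg m (xadd a b)
  smul : ∀ {α β : Cx K → Type} [∀ c, Fintype (α c)] [∀ c, Fintype (β c)] {a : XOp α β} (t : ℝ),
    XReg m a → XReg m (xsmul t a)
  re : ∀ {α β α' β' : Cx K → Type} [∀ c, Fintype (α c)] [∀ c, Fintype (β c)]
    [∀ c, Fintype (α' c)] [∀ c, Fintype (β' c)] {a : XOp α β} (ea : ∀ c, α' c ≃ α c)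
    (eb : ∀ c, β' c ≃ β c), XReg m a → XReg m (xre ea eb a)
  lift : ∀ {α β ι : Cx K → Type} [∀ c, Fintype (α c)] [∀ c, Fintype (β c)] [∀ c, Fintype (ι c)]
    {a : XOp α β}, XReg m a → XReg m (xlift (ι := ι) a)
  mul : ∀ {α β γ : Cx K → Type} [∀ c, Fintype (α c)] [∀ c, Fintype (β c)] [∀ c, Fintype (γ c)]
    {a : XOp α β} {b : XOp β γ}, XReg m a → XReg m b → XReg m (xmul a b)
  out : ∀ {α β : Cx K → Type} [∀ c, Fintype (α c)] [∀ c, Fintype (β c)] {a : XOp α β},
    XReg m a → XReg m (xout a)
  inn : ∀ {α β : Cx K → Type} [∀ c, Fintype (α c)] [∀ c, Fintype (β c)] {a : XOp α β},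
    XReg m a → XReg m (xin a)
  pm : XReg m (Pm K)

end Vale.Agent.P347.Zero.Calc

namespace Vale.Agent.P347.Zero.Calc

variable {K : ℕ → ℝ}

theorem xclosed : ∀ m : ℕ, XClosed K m
  | 0 =>
    { add := fun ha hb j => xgood_add j (ha j) (hb j)
      smul := fun t ha j => xgood_smul j t (ha j)
      re := fun ea eb ha j => xgood_re j ea eb (ha j)
      lift := fun ha j => xgood_lift j (ha j)
      mul := fun ha hb j => xgood_mul j (ha j) (hb j)
      out := fun ha => XAll.out ha
      inn := fun ha => XAll.inn ha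
      pm := xall_Pm }
  | m + 1 =>
    have H : XClosed K m := xclosed m
    { add := fun {α β} _ _ {a b} ha hb =>
        ⟨fun j => xgood_add j (ha.1 j) (hb.1 j),
          XReg.congr m (H.add ha.2.1 hb.2.1) fun c u hu x => funext fun p => funext fun k =>
            dx_add (ha.sm c _ _) (hb.sm c _ _) hu x _,
          XReg.congr m (H.add ha.2.2.1 hb.2.2.1) fun c u hu x => funext fun p => funext fun k =>
            dx_add (ha.sm c _ _) (hb.sm c _ _) hu x _,
          XReg.congr m (H.add ha.2.2.2 hb.2.2.2) fun c u hu x => funext fun p => funext fun k =>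
            hs_add (ha.sm c _ _) (hb.sm c _ _) hu x⟩
      smul := fun {α β} _ _ {a} t ha =>
        ⟨fun j => xgood_smul j t (ha.1 j),
          XReg.congr m (H.smul t ha.2.1) fun c u hu x => funext fun p => funext fun k =>
            dx_smul t (ha.sm c _ _) hu x _,
          XReg.congr m (H.smul t ha.2.2.1) fun c u hu x => funext fun p => funext fun k =>
            dx_smul t (ha.sm c _ _) hu x _,
          XReg.congr m (H.smul t ha.2.2.2) fun c u hu x => funext fun p => funext fun k =>
            hs_smul c t (ha.sm c _ _) hu x⟩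
      re := fun {α β α' β'} _ _ _ _ {a} ea eb ha =>
        ⟨fun j => xgood_re j ea eb (ha.1 j),
          H.re (fun c => (Equiv.refl _).prodCongr (ea c)) eb ha.2.1,
          H.re ea (fun c => (Equiv.refl _).prodCongr (eb c)) ha.2.2.1,
          H.re ea eb ha.2.2.2⟩
      lift := fun {α β ι} _ _ _ {a} ha =>
        ⟨fun j => xgood_lift j (ha.1 j),
          XReg.congr m (H.re (fun c => swap12 (Fin c.d) (ι c) (α c)) (fun c => Equiv.refl _)
            (H.lift (ι := ι) ha.2.1)) fun c u hu x => funext fun p => funext fun q => by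
              refine (dx_mlift _ _ _ _ _).trans ?_
              by_cases h : p.2.1 = q.1 <;> simp [xout, xre, xlift, mlift, swap12, h],
          XReg.congr m (H.re (fun c => Equiv.refl _) (fun c => swap12 (Fin c.d) (ι c) (β c))
            (H.lift (ι := ι) ha.2.2.1)) fun c u hu x => funext fun p => funext fun q => by
              refine (dx_mlift _ _ _ _ _).trans ?_
              by_cases h : p.1 = q.2.1 <;> simp [xin, xre, xlift, mlift, swap12, h],
          XReg.congr m (H.lift (ι := ι) ha.2.2.2) fun c u hu x => xhs_lift a c u hu x⟩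
      mul := fun {α β γ} _ _ _ {a b} ha hb =>
        ⟨fun j => xgood_mul j (ha.1 j) (hb.1 j),
          XReg.congr m (H.add (H.mul ha.2.1 (XReg.down m hb))
            (H.mul (H.lift (XReg.down m ha)) hb.2.1))
            fun c u hu x => xout_mul ha.all.base hb.all.base c u hu x,
          XReg.congr m (H.add (H.mul ha.2.2.1 (H.lift (XReg.down m hb)))
            (H.mul (XReg.down m ha) hb.2.2.1))
            fun c u hu x => xin_mul ha.all.base hb.all.base c u hu x,
          XReg.congr m (H.add (H.add (H.mul ha.2.2.2 (XReg.down m hb))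
            (H.mul (XReg.down m ha) hb.2.2.2)) (H.smul (-1) (H.mul ha.2.2.1 hb.2.1)))
            fun c u hu x => xhs_mul ha.all.base hb.all.base c u hu x⟩
      out := fun {α β} _ _ {a} ha =>
        ⟨XAll.out ha.1, H.out ha.2.1, H.inn ha.2.1,
          XReg.congr m (H.add (H.out ha.2.2.2)
            (H.smul (-1) (H.mul (H.re _ _ (H.lift H.pm)) ha.2.1)))
            fun c u hu x => xhs_out ha.all.base c u hu x⟩
      inn := fun {α β} _ _ {a} ha =>
        ⟨XAll.inn ha.1, H.out ha.2.2.1, H.inn ha.2.2.1,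
          XReg.congr m (H.add (H.inn ha.2.2.2)
            (H.smul (-1) (H.mul ha.2.2.1 (H.re _ _ (H.lift H.pm)))))
            fun c u hu x => xhs_inn ha.all.base c u hu x⟩
      pm := ⟨xall_Pm, H.out H.pm, H.inn H.pm,
          XReg.congr m (H.smul (-1) (H.mul H.pm H.pm)) fun c u hu x => xhs_Pm c u hu x⟩ }

theorem xreg_Pm (m : ℕ) : XReg m (Pm K) := (xclosed m).pm

theorem xreg_wPm {w : Cx K → ℝ} {W : ℝ} (hW : ∀ c, |w c| * c.lam ≤ W) :
    ∀ m : ℕ, XReg m (wPm w)
  | 0 => xall_wPm hW
  | m + 1 =>
    have H : XReg m (wPm w) := xreg_wPm hW m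
    ⟨xall_wPm hW, (xclosed m).out H, (xclosed m).inn H,
      XReg.congr m ((xclosed m).smul (-1) ((xclosed m).mul H (xreg_Pm m))) fun c u hu x => by
        funext k l
        show hs c.D (fun u x => w c * Pm K c u x k l) u x = _
        rw [hs_smul c (w c) (xall_Pm.base.1 c k l) hu x,
          show hs c.D (fun u x => Pm K c u x k l) u x = _ from
            congrFun (congrFun (xhs_Pm c u hu x) k) l]
        simp only [xsmul, xmul, mmul, wPm, mul_sum]
        exact sum_congr rfl fun j _ => by ring⟩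

/-- The rotation rate times the Hessian. -/
theorem xreg_rate (m : ℕ) : XReg m (wPm fun c : Cx K => c.sig⁻¹) :=
  xreg_wPm (W := K 0) (fun c => by
    rw [abs_of_pos (inv_pos.2 c.sig_pos), mul_comm]
    exact c.sig_inv) m

end Vale.Agent.P347.Zero.Calc
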